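import Vale.Agent.P354RI.Fun
import Vale.Agent.P354XO.Cht
import Vale.Agent.P354YA.Uni
import Vale.Agent.P354YN.Defs

/-!
The input of the rigidity theorem: definitions and exact statements.
-/

open scoped ContDiff
open Set Filter Topology

noncomputable section

namespace Vale.Agent.P354RN

open Vale.Agent.P354XG hiding Dom Dom0 Bd bdSub domI Keeps Low dom0_mk dom0_zero dom0_cst dom_of
  dom_zero dom_cst bd_alg dom_sum dom0_sum keeps_pd keeps_zero keeps_sum bd_closure dom_pb_aff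
  bd_fn bd_par Conn gron gron0 dom_of_sys dom_sub_ev0 Mp
open Vale.Agent.P354MG Vale.Agent.P354XD Vale.Agent.P354XR Vale.Agent.P354RI
open Vale.Agent.P354XO (Om Sq Sec sq_of hz sc)
open Vale.Agent.P354XE (Tw gin eT)
open Vale.Agent.P354XV (Lv)
open Vale.Agent.P354YA (gT KU eta)
open Vale.Agent.P354YN (Ad zN)

/-- The shear from the chart of the slices to the ingoing chart. -/
def shr (H : ℝ → ℝ) (x : E6) : E6 := (x.1 + H x.2.1, x.2)

theorem shr_cd {H : ℝ → ℝ} (h : ContDiff ℝ ∞ H) : ContDiff ℝ ∞ (shr H) :=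
  (contDiff_fst.add (h.comp (contDiff_fst.comp contDiff_snd))).prodMk contDiff_snd

theorem shr_neg (H : ℝ → ℝ) (x : E6) : shr (-H) (shr H x) = x := by simp [shr]
theorem neg_shr (H : ℝ → ℝ) (x : E6) : shr H (shr (-H) x) = x := by simp [shr]

theorem tend_shr {J : Type} {F : Filter J} {H : ℝ → ℝ} (h : ContDiff ℝ ∞ H) {K K' : J → Set E6}
    (e : ∀ j, ∀ x ∈ K j, shr H x ∈ K' j) :
    Tendsto (fun p : J × E6 => (p.1, shr H p.2)) (nb F K) (nb F K') := fun P hP => by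
  have h1 : ∀ᶠ p in nb F K', p ∈ P := hP
  exact ev_nb.2 ((ev_nb.1 h1).mono fun j k x hx =>
    (shr_cd h).continuous.continuousAt.eventually (k _ (e j x hx)))

variable {J : Type} (m : Dm J)

/-- The regions in the ingoing chart. -/
def OI (j : J) : Set E6 := shr (-m.H) ⁻¹' Om (m.D j)
abbrev GI : Filter (J × E6) := nb m.F (OI m)

variable {m} [Gr m.sF] (o : m.Ok)

include o in
theorem pos_GI : Pos (GI m) := (tend_shr o.H.neg fun _ _ h => h).eventually o.pos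

include o in
theorem sq : Sq m.G (GI m) (fun p => shr (-m.H) p.2) fun p => shr m.H p.2 :=
  sq_of ⟨⟨tend_shr o.H fun _ x h => by rwa [OI, mem_preimage, shr_neg],
    .of_forall fun _ => (shr_cd o.H).contDiffAt⟩, .of_forall fun _ => (shr_cd o.H.neg).contDiffAt,
    .of_forall fun p => shr_neg _ p.2⟩ (pos_GI o).off o.off (.of_forall fun _ _ _ => rfl)

/-- The transverse calculus of the metrics g, in the chart of the slices. -/
def GG (M a : ℝ) (g : J → Tw) : GHP m.S := (sq o).ghp (gT (GI m) M a g)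

/-- The hypotheses on the family g of metrics, which are given in the ingoing chart. -/
structure Hy (M a : ℝ) (g : J → Tw) (μ ν : ℕ → m.Q → ℝ) : Prop where
  a0 : a ≠ 0
  M0 : 0 < M
  wμ : Wgt μ
  wν : Wgt ν
  sν : Sml m.sF ν
  le : Le m.sF μ ν
  vac : ∀ᶠ j in m.F, ∀ x ∈ Om (m.D j), ∃ D, Lv (g j) D ∧ pj (shr m.H x) ∈ D
  bd : ∀ᶠ n in gr, ∀ θ, ∃ C, 0 ≤ C ∧ ∀ᶠ q in ph m.sF n.2 θ, ∀ x ∈ m.sl.K SA q, nq x = 1 →
    P354XE.Bd n.1 (g (m.ka q) - gin M a) (pj (shr m.H x)) (C * ν n.2 q)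
  eta : ∀ᶠ n in gr, ∀ θ, ∃ C, 0 ≤ C ∧ ∀ᶠ q in ph m.sF n.2 θ, ∀ x ∈ m.sl.K SA q, nq x = 1 →
    eta M a n.1 (g (m.ka q)) (shr m.H x) ≤ (C * μ n.2 q) ^ 2
  tube : ∀ᶠ j in m.F, ∀ t, (t, m.R1) ∈ m.D j →
    Ad M (g j) eT (pj (shr m.H (t, m.R1, 1, 1))) ∧
      zN M (g j) eT (pj (shr m.H (t, m.R1, 1, 1))) = eT

/-- RIN: the input of the rigidity theorem. -/
def RIN : Prop := ∀ (J : Type) (m : Dm J) [Gr m.sF] (o : m.Ok) (M a : ℝ) (g : J → Tw)
  (μ ν : ℕ → m.Q → ℝ), Hy (m := m) M a g μ ν →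
    (∀ᶠ p in GI m, p.2 ∈ KU M a (g p.1)) ∧ In m o M a (GG o M a g) μ ν

/-- The field which is dual to the gradient of P2. -/
def ZZ {G : Filter (J × E6)} [Loc G] (F : Fr (Sm G)) (f : Sm G) (b : Fin 4) : Sm G :=
  hz F.n f * F.l b - hz F.l f * F.n b - hz F.mb f * F.m b + hz F.m f * F.mb b

/-- PTB: the natural field z in a transverse null frame of a family; the orientation and the
order of l and n are arbitrary. -/
def PTB : Prop := ∃ δ > 0, ∀ (J : Type) (G : Filter (J × E6)) [Loc G] (M : ℝ) (g : J → Tw)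
  (F : Fr (Sm G)) (S : Geo (Sm G)), S = geo G (1 / 2) g → Pos G → F.Nl S → F.p1 S = 0 →
  F.p3 S = 0 → (∀ᶠ p in G, (∃ D, Lv (g p.1) D ∧ pj p.2 ∈ D) ∧ Ad M (g p.1) eT (pj p.2) ∧
    ‖rep (F.p0 S) p * rep (F.p4 S) p‖ < δ * ‖rep (F.p2 S) p‖ ^ 2) →
  ∀ᶠ p in G, ∃ ε : ℝ, (ε = 1 ∨ ε = -1) ∧ ∀ b, P354YN.co (zN M (g p.1) eT (pj p.2)) b =
    ε * ((-2 * M / rep (F.p2 S) p) ^ (1 / 3 : ℂ) / (6 * rep (F.p2 S) p) *
      rep (ZZ F (F.p2 S) b) p).re

/-- KCN: the domain of the transverse frame is a cone, and eta is homogeneous up to constants. -/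
def KCN : Prop := (∀ M a g x (z : ℂ), z ≠ 0 → x ∈ KU M a g → sc z x ∈ KU M a g) ∧
  ∀ (n : ℕ) (ρ : ℝ), ∃ C, ∀ M a g x (z : ℂ), z ≠ 0 → ‖z‖ ≤ ρ → ‖z‖⁻¹ ≤ ρ → x ∈ KU M a g →
    eta M a n g (sc z x) ≤ C * eta M a n g x

end Vale.Agent.P354RN
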