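import Vale.Agent.P354RN.Main
import Vale.Agent.P354CS.Ptb
import Vale.Agent.P354CN.Kcn

/-!
RIN, with no hypothesis.
-/

namespace Vale.Agent.P354RN

theorem rin_ok : RIN := rin P354CS.ptb P354CN.kcn

end Vale.Agent.P354RN
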