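import Vale.Agent.P354RN.Defs
import Vale.Agent.P354RI.Tri
import Vale.Agent.P354XD.Frm

/-!
The slices in the ingoing chart, and the transfer of estimates to the chart of the slices.
-/

open scoped ContDiff
open Set Filter Topology

noncomputable section

namespace Vale.Agent.P354RN

open Vale.Agent.P354XG hiding Dom Dom0 Bd bdSub domI Keeps Low dom0_mk dom0_zero dom0_cst dom_of
  dom_zero dom_cst bd_alg dom_sum dom0_sum keeps_pd keeps_zero keeps_sum bd_closure dom_pb_aff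
  bd_fn bd_par Conn gron gron0 dom_of_sys dom_sub_ev0 Mp
open Vale.Agent.P354MG Vale.Agent.P354XD Vale.Agent.P354XR Vale.Agent.P354RI
open Vale.Agent.P354XO (Om Sq Sec VF sc lin)
open Vale.Agent.P354XE (Tw gin eT)
open Vale.Agent.P354XV (Lv)
open Vale.Agent.P354YA (gT fT sG KU K0 eta Rx GHom fm)
open Vale.Agent.P354XF (fr)

section gen
variable {J J' : Type} {G : Filter (J × E6)} {G' : Filter (J' × E6)} [Loc G] [Loc G'] {κ : J' → J}
  {φ : ℝ → ℝ} {M a : ℝ} {g : J → Tw}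

variable (G φ) in
/-- A function of the radius. -/
def rg : Sm G := gm G fun p => (φ p.2.2.1 : ℂ)

theorem rs_rg (h : ContDiff ℝ ∞ φ) : Rs (rg G φ) fun p => (φ p.2.2.1 : ℂ) :=
  rs_gm (Eventually.of_forall fun _ => (Complex.ofRealCLM.contDiff.comp
    (h.comp (contDiff_fst.comp contDiff_snd))).contDiffAt)

theorem pd_rg (h : ContDiff ℝ ∞ φ) (v : E6) :
    pd v (rg G φ) = algebraMap ℂ _ v.2.1 * rg G (deriv φ) :=
  ((rs_rg h).pd v).ext ((rs_alg _).mul (rs_rg (contDiff_infty_iff_deriv.1 h).2))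
    (Eventually.of_forall fun p => by
      have : fderiv ℝ (P354XG.sl (fun p : J × E6 => (φ p.2.2.1 : ℂ)) p.1) p.2 = _ :=
        (Complex.ofRealCLM.hasFDerivAt.comp p.2 ((h.differentiable (by simp) _).hasDerivAt
          |>.comp_hasFDerivAt p.2 (hasFDerivAt_fst.comp p.2 hasFDerivAt_snd))).fderiv
      simp [pdF, this, mul_comm])

theorem d_rg (h : ContDiff ℝ ∞ φ) (i : Fin 6) :
    (hp G).d i (rg G φ) = if i = 1 then rg G (deriv φ) else 0 := by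
  rw [hp_d, pd_rg h, pd_rg h]
  fin_cases i <;> simp [d1, P354XD.d2, v1, v2]

theorem gT_rx (h : Rx G' G κ) (k : ∀ᶠ p in G, p.2 ∈ KU M a (g p.1)) :
    GHP.Hom (gT G M a g) (gT G' M a fun j => g (κ j)) h.rix := by
  have m : GHom (sG G g) (sG G' fun j => g (κ j)) h.rix := h.geo
    (Pos.off ((P354YA.k0_of k).mono fun _ k => k.1)) _ ((P354YA.k0_of k).mono fun _ k => k.2)
  rw [gT, gT, ← (h.rf (P354YA.fT_rf k)).ext
    (P354YA.fT_rf (g := fun j => g (κ j)) (h.ev k)) EventuallyEq.rfl]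
  exact m.ghp _

theorem hom_fr {A B : Type} [CommRing A] [Algebra ℂ A] [CommRing B] [Algebra ℂ B] {φ : A →ₐ[ℂ] B}
    {G : GHP A} {G' : GHP B} (h : GHP.Hom G G' φ) (b : Fin 6) (f : A) :
    φ (fr G b f) = fr G' b (φ f) := by
  fin_cases b
  exacts [h.th f, h.tp f, h.et f, h.ep f, h.H f, h.Hb f]

theorem vf_gT (b : Fin 6) : VF (fr (gT G M a g) b) := by
  have v := P354XO.gv_geo (sG G g).g (sG G g).Γ (fT G M a g).l (fT G M a g).n (fT G M a g).m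
    (fT G M a g).mb
  fin_cases b
  exacts [v.th, v.tp, v.et, v.ep, v.H, v.Hb]

end gen

theorem bd_rg {J : Type} {F : Filter J} [Gr F] {K : J → Set E6} {M a : J → ℝ} (r : Reg F K M a)
    {φ : ℝ → ℝ} (h : ContDiff ℝ ∞ φ) : Bd (rg (nb F K) φ) := by
  let L : E6 →L[ℝ] ℝ := (ContinuousLinearMap.fst ℝ ℝ _).comp (.snd ℝ ℝ _)
  have k : P354XG.Mp F K (fun j => L '' K j) (aff (fun _ => 0) L) :=
    mp_aff _ _ (Eventually.of_forall fun q x hx => ⟨x, hx, by simp⟩)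
  obtain ⟨s, hs⟩ := bd_fn (F := F) (K := fun j => L '' K j) isOpen_univ (r.mono fun k h θ => by
    obtain ⟨c, -, C, h⟩ := h θ
    exact ⟨Icc c C, isCompact_Icc, subset_univ _, h.mono fun j h => image_subset_iff.2 fun x hx =>
      ⟨(h x hx).2.2.2.1, (h x hx).2.2.2.2.1⟩⟩)
    (φ := fun r => (φ r : ℂ)) (Complex.ofRealCLM.contDiff.comp h).contDiffOn
  rw [(rs_rg h).ext ((k.rep_pb (fn _ s)).trans (k.ev (rs_mk (f := fun p => φ p.2) s)))
    (Eventually.of_forall fun p => by simp [aff, L])]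
  exact dom_pb_aff _ hs

theorem unit_nq {J : Type} {s : Sl J} {q : J} {x : E6} (hx : x ∈ s.K SA q) :
    ∃ y ∈ s.K SA q, nq y = 1 ∧ ∃ z : ℂ, z ≠ 0 ∧ ‖z‖ ≤ 16 ∧ ‖z‖⁻¹ ≤ 16 ∧ x = sc z y := by
  obtain ⟨h1, h2⟩ := hx.2.2
  have n := nq_pos (sa_ne hx.2.2)
  have s0 := Real.sqrt_pos.2 n
  have e := Real.mul_self_sqrt n.le
  have n1 := norm_nonneg x.2.2.1
  have n2 := norm_nonneg x.2.2.2
  have a1 := norm_fst_le x.2.2
  have a2 := norm_snd_le x.2.2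
  have q1 : nq x = ‖x.2.2.1‖ ^ 2 + ‖x.2.2.2‖ ^ 2 := by simp only [nq, Complex.normSq_eq_norm_sq]
  have l1 : ‖x.2.2‖ ≤ √(nq x) := Real.le_sqrt_of_sq_le (by
    rw [q1, Prod.norm_def]; rcases max_cases ‖x.2.2.1‖ ‖x.2.2.2‖ with h | h <;> rw [h.1] <;>
      nlinarith)
  have l2 : √(nq x) ≤ 2 * ‖x.2.2‖ := Real.sqrt_le_iff.2 ⟨by positivity, by rw [q1]; nlinarith⟩
  have z0 : ((√(nq x) : ℝ) : ℂ) ≠ 0 := Complex.ofReal_ne_zero.2 s0.ne'
  have nz : ‖((√(nq x) : ℝ) : ℂ)‖ = √(nq x) := by rw [Complex.norm_real, Real.norm_of_nonneg s0.le]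
  refine ⟨sc ((√(nq x) : ℝ) : ℂ)⁻¹ x, ⟨hx.1, hx.2.1, ?_⟩, ?_, _, z0, by rw [nz]; linarith, ?_,
    (P354XO.sc_inv z0 x).symm⟩
  · have : ‖(sc ((√(nq x) : ℝ) : ℂ)⁻¹ x).2.2‖ = ‖x.2.2‖ / √(nq x) := by
      rw [P354XO.sc_ap, norm_smul, norm_inv, nz, div_eq_inv_mul]
    rw [SA, mem_ofPred, this, le_div_iff₀ s0, div_le_iff₀ s0]
    constructor <;> linarith
  · rw [P354XO.nq_sc, map_inv₀, Complex.normSq_ofReal, e, inv_mul_cancel₀ n.ne']
  · rw [nz, inv_le_comm₀ s0 (by norm_num)]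
    linarith

variable {J : Type} (m : Dm J)

/-- The slices in the ingoing chart. -/
def KS (q : m.Q) : Set E6 := shr (-m.H) ⁻¹' m.sl.K SA q
abbrev GS : Filter (m.Q × E6) := nb m.sF (KS m)

variable {m} [Gr m.sF] (o : m.Ok)
include o

theorem rxS : Rx (GS m) (GI m) m.ka := fun P hP => by
  have h1 : ∀ᶠ p in GI m, p ∈ P := hP
  refine ev_nb.2 ((o.sub.and (o.td.eventually (ev_nb.1 h1))).mono fun q h x hx =>
    h.2 x ⟨?_, sa_ne hx.2.2⟩)
  rw [hx.1]; exact h.1 _ hx.2.1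

theorem mpS : P354XG.Mp m.sF (m.sl.K SA) (KS m) fun p => shr m.H p.2 :=
  ⟨.of_forall fun _ => (shr_cd o.H).contDiffAt,
    .of_forall fun _ x h => by rwa [KS, mem_preimage, shr_neg]⟩

theorem regS {M : ℝ} (hM : 0 < M) (a : ℝ) : Reg m.sF (KS m) (fun _ => M) fun _ => a :=
  (o.reg le_rfl hM a).mono fun _ h θ => (h θ).imp fun _ h => ⟨h.1, h.2.imp fun _ h =>
    h.mono fun _ h x hx => h (shr (-m.H) x) hx⟩

theorem tameS : Tame (mpS o) := fun l v => by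
  rw [P354XG.Mp.co, (rs_mk ((mpS o).sm_co l)).ext (b := lin l + algebraMap ℂ _ (l (1, 0)) * rg _ m.H)
    ((rs_mk (P354XO.sm_lin l)).add ((rs_alg _).mul (rs_rg o.H))) (.of_forall fun p => by
      have : shr m.H p.2 = p.2 + m.H p.2.2.1 • ((1, 0) : E6) := by ext <;> simp [shr]
      simp only [this, map_add, map_smul, Complex.real_smul, mul_comm]),
    D_add, P354XO.pd_lin]
  exact (bd_alg _).add wgt_one
    (((bd_alg _).bmul wgt_one (bd_rg (o.reg le_rfl one_pos 0) o.H)).pd v)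

theorem rx_pb (u : Sm (GI m)) : o.rx le_rfl ((sq o).pb u) = (mpS o).pb ((rxS o).rix u) :=
  ((o.rxx le_rfl).rs ((sq o).rep_pb u)).ext
    (((mpS o).rep_pb _).trans ((mpS o).ev ((rxS o).rep u))) .rfl

theorem da_pb {μ : ℕ → m.Q → ℝ} (hμ : Wgt μ) {u : Sm (GI m)} (h : Dom μ ((rxS o).rix u)) :
    o.DA μ ((sq o).pb u) := by
  rw [Dm.Ok.DA, rx_pb]; exact h.pb _ (tameS o) hμ

variable {M a : ℝ} {g : J → Tw} {μ ν : ℕ → m.Q → ℝ} (h : Hy (m := m) M a g μ ν)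
include h

theorem Hy.lv : ∀ᶠ p in GI m, ∃ D, Lv (g p.1) D ∧ pj p.2 ∈ D :=
  ((tend_shr o.H.neg fun _ _ h => h).eventually (o.ev
    (P := fun p => ∃ D, Lv (g p.1) D ∧ pj (shr m.H p.2) ∈ D) h.vac)).mono fun p k => by
    rw [← neg_shr m.H p.2]; exact k

theorem Hy.k0 : ∀ᶠ p in GI m, p.2 ∈ K0 (g p.1) :=
  ((pos_GI o).and (h.lv o)).mono fun _ ⟨k, D, l, e⟩ => ⟨k, D, l.isOpen, e, l.met, l.vac⟩

theorem Hy.near : P354YA.OkT (GS m) M a (fun q => g (m.ka q)) ∧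
    GCl (P354XD.henG (KS m) h.wν h.sν) (gT (GS m) M a fun q => g (m.ka q))
      (kk (hp (GS m)) (pm (GS m) (fun _ => M) fun _ => a)).kerr := by
  have := (regS o h.M0 a).near (g := fun q => g (m.ka q))
    ((ev_nb_on ((rxS o).ev (h.k0 o))).mono fun q k x hx => (k x hx).2) h.wν h.sν
    (h.bd.mono fun n k θ => (k θ).imp fun C k => ⟨k.1, k.2.mono fun q k x hx => by
      obtain ⟨y, hy, n, z, z0, -, -, e⟩ := unit_nq hx
      rw [← neg_shr m.H x, e, show shr m.H (sc z y) = sc z (shr m.H y) from rfl, P354XO.pj_sc z0]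
      exact k y hy n⟩)
  exact ⟨this.1, this.2.2⟩

theorem Hy.kuS : ∀ᶠ p in GS m, p.2 ∈ KU M a (g (m.ka p.1)) :=
  (P354YA.okT_iff (g := fun q => g (m.ka q)) ((rxS o).ev (h.k0 o))).1 (h.near o).1

theorem Hy.ku (k : KCN) : ∀ᶠ p in GI m, p.2 ∈ KU M a (g p.1) := by
  refine ev_nb.2 ((o.cov _ (ev_nb_on (h.kuS o))).mono fun j c x hx =>
    (P354YA.KU_open (g j)).eventually_mem ?_)
  obtain ⟨q, l, rfl, e1, e2⟩ := c _ hx.1
  have z := P354XO.nz_ne (x := x) hx.2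
  have := k.1 M a _ _ _ z (l (sc (P354XO.nz x)⁻¹ x) ⟨e1.symm, e2, by
    show (sc (P354XO.nz x)⁻¹ x).2.2 ∈ SA
    rw [SA, mem_ofPred, P354XO.norm_unit (x := x) hx.2]; norm_num⟩)
  rwa [P354XO.sc_inv z] at this

theorem Hy.etaS (k : KCN) : ∀ᶠ n in gr, ∀ θ, ∃ C, 0 ≤ C ∧ ∀ᶠ q in ph m.sF n.2 θ, ∀ x ∈ KS m q,
    P354YA.eta M a n.1 (g (m.ka q)) x ≤ (C * μ n.2 q) ^ 2 := by
  filter_upwards [h.eta, evj (ev_nb_on (h.kuS o))] with n h1 h2 θ
  obtain ⟨C, hC, h1⟩ := h1 θ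
  obtain ⟨B, hB⟩ := k.2 n.1 16
  refine ⟨(|B| + 1) * C, by positivity, (h1.and (h2 θ)).mono fun q l x hx => ?_⟩
  obtain ⟨y, hy, n1, z, z0, z1, z2, e⟩ := unit_nq hx
  rw [← neg_shr m.H x, e, show shr m.H (sc z y) = sc z (shr m.H y) from rfl]
  refine (hB _ _ _ _ z z0 z1 z2 (l.2 _ (by rwa [KS, mem_preimage, shr_neg]))).trans ?_
  have e0 := P354YA.eta_nonneg (M := M) (a := a) n.1 (g (m.ka q)) (shr m.H y)
  have := l.1 y hy n1
  have b := abs_nonneg B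
  rw [mul_assoc, mul_pow]
  exact (mul_le_mul_of_nonneg_right ((le_abs_self B).trans (by nlinarith)) e0).trans
    (mul_le_mul_of_nonneg_left this (sq_nonneg _))

end Vale.Agent.P354RN
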