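import Vale.Agent.P354RN.Tb
import Vale.Agent.P354YN.Smo
import Vale.Agent.P354YN.Jet

/-!
The input of the rigidity theorem.
-/

open scoped ContDiff
open Set Filter Topology

noncomputable section

namespace Vale.Agent.P354RN

open Vale.Agent.P354XG hiding Dom Dom0 Bd bdSub domI Keeps Low dom0_mk dom0_zero dom0_cst dom_of
  dom_zero dom_cst bd_alg dom_sum dom0_sum keeps_pd keeps_zero keeps_sum bd_closure dom_pb_aff
  bd_fn bd_par Conn gron gron0 dom_of_sys dom_sub_ev0 Mp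
open Vale.Agent.P354MG Vale.Agent.P354XD Vale.Agent.P354XR Vale.Agent.P354RI
open Vale.Agent.P354XG.Geo (hf two_hf)
open Vale.Agent.P354XO (VF Om hz)
open Vale.Agent.P354XE (Tw eT)
open Vale.Agent.P354XF (fr)
open Vale.Agent.P354RI.Tri (rr_cs Cs)
open Vale.Agent.P354YA (gT fT sG KU Rx)
open Vale.Agent.P354YN (Ad zN)

variable {J : Type}

theorem zz_eq {G : Filter (J × E6)} [Loc G] (o : Off G) {M a : ℝ} {g : J → Tw}
    (i : (gT G M a g).Is) (b : Fin 4) :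
    ZZ (fT G M a g) (gT G M a g).P2 b = ZG (gT G M a g) ((hp G).co b) := by
  have e1 : ∀ u, (sG G g).act u (gT G M a g).P2 = hz u.X (gT G M a g).P2 := fun u => by
    rw [Geo.act_apply, show (sG G g).H _ = 0 from i.H_P2, show (sG G g).Hb _ = 0 from i.Hb_P2,
      mul_zero, mul_zero, add_zero, add_zero, P354XO.hz_ap]
    rfl
  have e2 : ∀ u, (sG G g).act u ((hp G).co b) = u.X b := fun u =>
    congrFun ((hp_is o).prj_act _ _ u) b
  have a0 : (gT G M a g).th (gT G M a g).P2 = hz (fT G M a g).l (gT G M a g).P2 := e1 _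
  have a1 : (gT G M a g).tp (gT G M a g).P2 = hz (fT G M a g).n (gT G M a g).P2 := e1 _
  have a2 : (gT G M a g).et (gT G M a g).P2 = hz (fT G M a g).m (gT G M a g).P2 := e1 _
  have a3 : (gT G M a g).ep (gT G M a g).P2 = hz (fT G M a g).mb (gT G M a g).P2 := e1 _
  have b0 : (gT G M a g).th ((hp G).co b) = (fT G M a g).l b := e2 _
  have b1 : (gT G M a g).tp ((hp G).co b) = (fT G M a g).n b := e2 _
  have b2 : (gT G M a g).et ((hp G).co b) = (fT G M a g).m b := e2 _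
  have b3 : (gT G M a g).ep ((hp G).co b) = (fT G M a g).mb b := e2 _
  rw [ZZ, ZG, a0, a1, a2, a3, b0, b1, b2, b3]

theorem ad_ev {M : ℝ} {g : Tw} {x : E6} (n : x.2.2 ≠ 0) (v : VacAt g (pj x))
    (h : Ad M g eT (pj x)) : ∀ᶠ y in 𝓝 x, Ad M g eT (pj y) := by
  obtain ⟨D, o, e, m, -⟩ := v
  have c := (P354YN.jet_ok.1 3 g _ fun u v =>
    (m.smooth u v).contDiffAt (o.mem_nhds e)).1.continuousAt.comp (cd_pj n).continuousAt
  exact (continuousAt_const.prodMk (c.prodMk continuousAt_const)).eventually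
    (P354YN.smo.2.1.mem_nhds h)

variable (m : Dm J)

/-- The base curves in the ingoing chart. -/
def KB (j : J) : Set E6 := {x | ∃ t, (t, m.R1) ∈ m.D j ∧ shr m.H (t, m.R1, 1, 1) = x}
abbrev GB : Filter (J × E6) := nb m.F (KB m)

theorem rxB : Rx (GB m) (GI m) id := fun P hP => by
  have h1 : ∀ᶠ p in GI m, p ∈ P := hP
  refine ev_nb.2 ((ev_nb.1 h1).mono fun j h x ⟨t, e1, e2⟩ => h x ?_)
  rw [← e2, OI, mem_preimage, shr_neg]
  exact ⟨e1, by simp⟩

variable {m} [Gr m.sF] (o : m.Ok)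
include o

theorem evB {P : J × E6 → Prop} (h : ∀ᶠ p in GB m, P p) :
    ∀ᶠ p in m.G, P (p.1, shr m.H (p.2.1, m.R1, 1, 1)) :=
  o.ev ((o.op.and (ev_nb_on h)).mono fun _ k _ hx =>
    k.2 _ ⟨_, (k.1.2 _ hx.1).2.1 (left_mem_segment ℝ _ _), rfl⟩)

theorem bs_pi (u : Sm (GI m)) : Rs (o.bs ((sq o).pb u))
    fun p => rep ((rxB m).rix u) (p.1, shr m.H (p.2.1, m.R1, 1, 1)) :=
  ((o.mp.rep_pb _).trans (o.mp.ev ((sq o).rep_pb u))).trans
    ((evB o ((rxB m).rep u)).mono fun p k => by simpa [aff, Dm.pt] using k.symm)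

theorem pi_co (b : Fin 4) : (sq o).pb ((hp _).co b) = ci m b :=
  (pi_rs o (rs_co (sq o).o b)).ext ((rs_co o.off b).add ((rs_e0 b).mul (Dm.rs_rf o.H)))
    (.of_forall fun p => by
      have : pj (shr m.H p.2) = ((pj p.2).1 + m.H p.2.2.1, (pj p.2).2) := rfl
      simp only [this]
      fin_cases b <;> simp [P354RC.cv, P354YN.co, eT])

variable {M a : ℝ} {g : J → Tw} {μ ν : ℕ → m.Q → ℝ} (h : Hy (m := m) M a g μ ν) (k : KCN)
include h k

theorem Hy.sml {δ : ℝ} (d : 0 < δ) : ∀ᶠ p in m.G, ‖rep (o.bs (GG o M a g).P0) p *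
    rep (o.bs (GG o M a g).P4) p‖ < δ * ‖rep (o.bs (GG o M a g).P2) p‖ ^ 2 := by
  obtain ⟨p0, p4⟩ := h.P04 o k
  have b : kp m M ∈ (h.tri o).B := algebraMap_mem _ _
  have s := (h.tri o).IS _ (h.bsI o ((h.tri o).mI _ (mul_mem (mul_mem b b) (h.scz o k 8).mem) _ p4))
  have e := o.all le_rfl (fun w n => by norm_num [SA, n]) (H_bs o _).1 (H_bs o _).2
    (P := fun z => ‖z‖ < δ / 4) (Dom.ev_lt s h.sν _ (by positivity))
  have n := h.nr o (h.uu o k)
  have bk : o.bs (kp m M) = kp m M := o.bs.commutes _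
  have rk : Rs (kp m M) fun _ => (m.R1 : ℂ) ^ 3 * -(2 * M : ℂ)⁻¹ := rs_alg _
  simp only [map_mul, bk] at e n
  filter_upwards [e, n, ((rk.mul rk).mul (rs_rep (o.bs (GG o M a g).P0))).mul
    (rs_rep (o.bs (GG o M a g).P4)), (rs_rep (o.bs (GG o M a g).P2)).mul rk]
    with p e n e1 e2
  rw [e2] at n
  rw [show P354Z.sc (GG o M a g) 8 = (GG o M a g).P0 from rfl, e1, mul_assoc, norm_mul,
    norm_mul] at e
  generalize (m.R1 : ℂ) ^ 3 * -(2 * M : ℂ)⁻¹ = c at e n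
  have := norm_sub_norm_le 1 (rep (o.bs (GG o M a g).P2) p * c)
  rw [norm_sub_rev, norm_one, norm_mul] at this
  refine lt_of_mul_lt_mul_left (a := ‖c‖ * ‖c‖) (e.trans_le ?_) (by positivity)
  have l : 1 / 2 ≤ ‖rep (o.bs (GG o M a g).P2) p‖ * ‖c‖ := by linarith
  nlinarith [mul_self_le_mul_self (by norm_num) l]

theorem Hy.key (P : PTB) : ∀ᶠ p in m.G, ∃ ε : ℝ, (ε = 1 ∨ ε = -1) ∧ ∀ b, P354YN.co eT b =
    ε * ((-2 * M / rep (o.bs (GG o M a g).P2) p) ^ (1 / 3 : ℂ) /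
      (6 * rep (o.bs (GG o M a g).P2) p) * rep (o.bs (ZG (GG o M a g) (ci m b))) p).re := by
  obtain ⟨δ, d, P⟩ := P
  have ku : ∀ᶠ p : J × E6 in GB m, p.2 ∈ KU M a (g p.1) := (rxB m).ev (h.ku o k)
  have ps : Pos (GB m) := (rxB m).ev (pos_GI o)
  have w := P354YA.fT_wn ku
  have hm : GHP.Hom (gT (GI m) M a g) (gT (GB m) M a g) (rxB m).rix := gT_rx (rxB m) (h.ku o k)
  have r : ∀ {u v w}, (sq o).pb u = v → (rxB m).rix u = w → ∀ᶠ p in m.G,
      rep (o.bs v) p = rep w (p.1, shr m.H (p.2.1, m.R1, 1, 1)) := fun e e' => e ▸ e' ▸ bs_pi o _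
  have r2 := r (pi_G o).P2 hm.P2
  have := P J (GB m) M g (fT _ M a g) (sG _ g) rfl ps w.1.nl w.2.1 w.2.2
    (((rxB m).ev (h.lv o)).and (ev_nb.2 ?_))
  · filter_upwards [evB o this, r2, eventually_all.2 fun b => r
      ((hom_zg (pi_G o) _).trans (congrArg _ (pi_co o b))) ((hom_zg hm _).trans
        ((congrArg _ (((rxB m).hp (sq o).o).co b)).trans (zz_eq ps.off (P354YA.gT_is ku) b).symm)),
      o.ev (P := fun p => zN M (g p.1) eT (pj (shr m.H (p.2.1, m.R1, 1, 1))) = eT)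
        ((o.op.and h.tube).mono fun j k x hx =>
          (k.2 _ ((k.1.2 _ hx.1).2.1 (left_mem_segment ℝ _ _))).2)] with p h1 h2 h3 h4
    simp only [h2, h3]
    rwa [h4] at h1
  · filter_upwards [h.tube, ev_nb_on (P354YA.k0_of ku), ev_nb_on (h.sml o k d), ev_nb_on r2,
      ev_nb_on (r (pi_G o).P0 hm.P0), ev_nb_on (r (pi_G o).P4 hm.P4),
      ev_nb_on (rep_sm (gT (GB m) M a g).P0), ev_nb_on (rep_sm (gT (GB m) M a g).P4),
      ev_nb_on (rep_sm (gT (GB m) M a g).P2)] with j h1 h2 h3 e2 e0 e4 s0 s4 s2 x hx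
    refine (ad_ev (h2 x hx).1.2 (h2 x hx).2 ?_).and (ContinuousAt.eventually_lt
      ((s0 x hx).continuousAt.mul (s4 x hx).continuousAt).norm
      (continuousAt_const.mul ((s2 x hx).continuousAt.norm.pow 2)) ?_) <;>
      obtain ⟨t, e, rfl⟩ := hx
    · exact (h1 t e).1
    · have y : ((t, m.R1, 1, 1) : E6) ∈ Om (m.D j) := ⟨e, by simp⟩
      have := h3 _ y
      rwa [e2 _ y, e0 _ y, e4 _ y] at this

theorem Hy.tm (P : PTB) : ∃ Y ∈ (h.tri o).B, o.bs Y = Y ∧ ∀ b, Hp.e0 _ b -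
    o.bs (Y * Yf (GG o M a g) (ci m b) + cj Y * Yb (GG o M a g) (ci m b)) ∈ (h.tri o).I := by
  have cu := h.uu o k
  have n := h.nr o cu
  have l := h.lgc o n cu
  have bl := bs_lg o n
  have un := n.unit
  have bk : o.bs (kp m M) = kp m M := o.bs.commutes _
  have rk : Rs (kp m M) fun _ => (m.R1 : ℂ) ^ 3 * -(2 * M : ℂ)⁻¹ := rs_alg _
  have rl := n.rs
  generalize lg (o.bs ((GG o M a g).P2 * kp m M)) = L at l bl un rl
  rw [map_mul, bk] at un n rl
  obtain ⟨Y, hY⟩ : ∃ Y, Y = algebraMap ℂ m.S m.R1 * ex (algebraMap ℂ m.S (-(1 / 3)) * L) := ⟨_, rfl⟩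
  obtain ⟨q, hq⟩ : ∃ q, q = Y * (algebraMap ℂ m.S (1 / 6) * (kp m M * ex (-L))) := ⟨_, rfl⟩
  have cY : (h.tri o).Cs Y (algebraMap ℂ m.S m.R1 * 1) := hY ▸
    rr_cs.mul (rr_cs.alg _) (h.exc o ((h.tri o).mS _ (algebraMap_mem _ _) _ l))
  have bY : o.bs Y = Y := by rw [hY, map_mul, o.bs_ex, map_mul, bl, o.bs.commutes, o.bs.commutes]
  have bq : o.bs q = q := by
    rw [hq, map_mul, map_mul, map_mul, o.bs_ex, map_neg, bl, bY, bk, o.bs.commutes]
  have qB : q ∈ (h.tri o).B := hq ▸ mul_mem cY.mem (mul_mem (algebraMap_mem _ _)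
    (mul_mem (algebraMap_mem _ _) (h.exc o (neg_mem l)).mem))
  have s : ∀ b, q * o.bs (Er (GG o M a g) (ci m b)) ∈ (h.tri o).I := fun b =>
    (h.tri o).mI _ qB _ (h.bsI o (h.er o k b))
  have c6 : 3 * algebraMap ℂ m.S (1 / 6) = hf _ := by
    rw [← map_ofNat (algebraMap ℂ m.S) 3, ← map_mul, hf]; norm_num
  have w : ∀ b, o.bs (q * ZG (GG o M a g) (ci m b)) = hf _ * Y * o.bs (Yf (GG o M a g) (ci m b)) +
      q * o.bs (Er (GG o M a g) (ci m b)) := fun b => by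
    rw [map_mul, bq, zg_eq (h.is o k) (h.P13 o k).1 (h.P13 o k).2, map_add, map_mul, map_mul,
      map_ofNat]
    linear_combination 3 * o.bs (GG o M a g).P2 * o.bs (Yf (GG o M a g) (ci m b)) * hq +
      3 * algebraMap ℂ m.S (1 / 6) * Y * o.bs (Yf (GG o M a g) (ci m b)) * un +
      Y * o.bs (Yf (GG o M a g) (ci m b)) * c6
  have n0 : Nr (o.bs (q * ZG (GG o M a g) (ci m 0))) := h.nr o (by
    have := rr_cs.add (rr_cs.mul (rr_cs.mul rr_cs.hf cY) (h.bsC o (h.yf o k)))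
      (⟨zero_mem _, by rw [sub_zero]; exact (h.tri o).IS _ (s 0)⟩ : (h.tri o).Cs _ 0)
    rwa [← w, show _ + (0 : m.S) = 1 by
      rw [map_mul, map_ofNat]
      linear_combination (bs_K o h.M0 a).1 + o.bs (m.K0 M a).z * algebraMap ℂ m.S m.R1 *
        two_hf (A := m.S)] at this)
  have r1 : ∀ᶠ p : J × E6 in m.G, 0 < m.R1 := (o.mp.ev o.pos).mono fun p e => by
    simpa [aff, Dm.pt] using e.1
  have rq : Rs q fun p => (-2 * M / rep (o.bs (GG o M a g).P2) p) ^ (1 / 3 : ℂ) /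
      (6 * rep (o.bs (GG o M a g).P2) p) := by
    rw [hq, hY]
    refine (((rs_alg _).mul (rs_ex _)).mul ((rs_alg _).mul ((rs_rep (o.bs (GG o M a g).P2)).of_mul
      (by rw [← mul_assoc, un])))).congr ?_
    filter_upwards [n, r1, (rs_alg (-(1 / 3))).mul rl, (rs_rep (o.bs (GG o M a g).P2)).mul rk]
      with p n r1 e1 e2
    rw [e2] at n
    rw [e1, e2, cube r1 h.M0 n]
    ring
  have rw' := fun b => rq.mul (rs_rep (o.bs (ZG (GG o M a g) (ci m b))))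
  have e : ∀ b, Hp.e0 m.S b = hf _ * (o.bs (q * ZG (GG o M a g) (ci m b)) +
      cj (o.bs (q * ZG (GG o M a g) (ci m b)))) := fun b => by
    rw [map_mul, bq] at n0 ⊢
    refine (rs_e0 b).ext (rs_hf.mul ((rw' b).add (rw' b).cj)) ?_
    filter_upwards [h.key o k P, n0, rw' 0] with p ⟨ε, he, e⟩ n0 r0
    have e0 := e 0
    rw [r0] at n0
    have := (Complex.abs_re_le_norm _).trans_lt n0
    rw [Complex.sub_re, Complex.one_re, abs_lt] at this
    rw [show P354YN.co eT 0 = 1 from rfl] at e0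
    obtain rfl | rfl := he
    · rw [Complex.add_conj, e b, hf]; simp
    · linarith [this.1]
  have ch : cj (hf m.S) = hf _ := o.is.c_hf
  refine ⟨hf _ * hf _ * Y, mul_mem (mul_mem (algebraMap_mem _ _) (algebraMap_mem _ _)) cY.mem,
    by rw [map_mul, map_mul, bY, hf, o.bs.commutes], fun b => ?_⟩
  have cc : cj (ci m b) = ci m b := by
    rw [ci, map_add, map_mul, Dm.cj_rf o.H]
    exact congrArg₂ _ (o.is.c_co b) (congrArg (· * _) (o.is.c_e0 b))
  have cy : cj (o.bs (Yf (GG o M a g) (ci m b))) = o.bs (Yb (GG o M a g) (ci m b)) := by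
    rw [← o.bs_cj]; exact congrArg _ (c_yf (h.is o k) cc)
  have := (h.tri o).mI _ (algebraMap_mem _ (1 / 2 : ℂ)) _ (add_mem (s b) ((h.tri o).cI _ (s b)))
  have bh : o.bs (hf m.S) = hf _ := o.bs.commutes _
  rw [e b, w b]
  simp only [map_add, map_mul, o.bs_cj, bY, ch, cy, bh] at this ⊢
  refine (congrArg (· ∈ (h.tri o).I) ?_).mp this
  rw [← hf]
  ring

theorem Hy.tb (P : PTB) : ∃ c c' : m.S, o.DA (w1 _) (o.bs c) ∧ o.DA (w1 _) (o.bs c') ∧
    ∀ b, o.DA μ (o.bs (m.h.d 0 (m.h.co b) - c * Yf (GG o M a g) (m.h.co b) -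
      c' * Yb (GG o M a g) (m.h.co b))) := by
  obtain ⟨Y, B, bY, U⟩ := h.tm o k P
  refine ⟨Y, cj Y, h.bsB o B, h.bsB o ((h.tri o).cB _ B), fun b => ?_⟩
  have v := vf_GG (M := M) (a := a) (g := g) o
  have vf : VF (Y • Yf (GG o M a g) + cj Y • Yb (GG o M a g)) :=
    (((((v 0).smul _).sub ((v 1).smul _)).sub ((v 2).smul _)).add ((v 3).smul _)).smul _ |>.add
      ((((((v 0).smul _).sub ((v 1).smul _)).sub ((v 3).smul _)).add ((v 2).smul _)).smul _)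
  have e : ∀ f, Y * Yf (GG o M a g) f + cj Y * Yb (GG o M a g) f =
      (Y • Yf (GG o M a g) + cj Y • Yb (GG o M a g)) f := fun f => rfl
  simp only [e, vf_ci o.H vf] at U
  rw [(o.is.tco b).1, sub_sub, e]
  generalize Y • Yf (GG o M a g) + cj Y • Yb (GG o M a g) = W at U ⊢
  have om := fun d => (h.tri o).mI _ (h.bsB o ((hb_rx o le_rfl h.M0 a).1.om d)) _ (U d)
  have z : o.bs (W (m.h.z 1)) ∈ (h.tri o).I := by
    refine (congrArg (· ∈ (h.tri o).I) ?_).mp (neg_mem (add_mem (add_mem (om 1) (om 2)) (om 3)))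
    rw [z1_eq o.is W, Fin.sum_univ_four, show m.h.om 0 = 0 from rfl]
    simp only [Hp.e0, Matrix.cons_val, map_add, map_mul, zero_mul, add_zero, zero_add]
    ring
  have be : o.bs (Hp.e0 _ b) = Hp.e0 _ b := by fin_cases b <;> simp [Hp.e0]
  refine (congrArg (· ∈ (h.tri o).I) ?_).mp (add_mem (U b) ((h.tri o).mI _ (mul_mem (e0_mem b)
    (h.bsB o (o.bd_rf le_rfl (contDiff_infty_iff_deriv.1 o.H).2))) _ z))
  simp only [map_add, map_mul, map_sub, be]
  ring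

omit o h k [Gr m.sF] in
theorem rin (P : PTB) (k : KCN) : RIN := fun _ _ _ o _ _ _ _ _ h =>
  ⟨h.ku o k, h.a0, h.M0, h.is o k, rfl, (sq o).H, (sq o).B, vf_GG o, (h.P13 o k).1, (h.P13 o k).2,
    h.wμ, h.wν, h.sν, h.le, (h.P04 o k).1, (h.P04 o k).2, fun b i => (h.frz o k b i).2,
    (h.scz o k 2).2, (h.scz o k 6).2, (h.scz o k 3).2, (h.scz o k 7).2, (h.scz o k 10).2,
    h.tb o k P⟩

end Vale.Agent.P354RN
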