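import Vale.Agent.P354RN.Wd
import Vale.Agent.P354RI.Ins

/-!
The calculus in the chart of the slices is close to Kerr.
-/

open scoped ContDiff
open Set Filter Topology

noncomputable section

namespace Vale.Agent.P354RN

open Vale.Agent.P354XG hiding Dom Dom0 Bd bdSub domI Keeps Low dom0_mk dom0_zero dom0_cst dom_of
  dom_zero dom_cst bd_alg dom_sum dom0_sum keeps_pd keeps_zero keeps_sum bd_closure dom_pb_aff
  bd_fn bd_par Conn gron gron0 dom_of_sys dom_sub_ev0 Mp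
open Vale.Agent.P354MG Vale.Agent.P354XD Vale.Agent.P354XR Vale.Agent.P354RI
open Vale.Agent.P354XO (VF)
open Vale.Agent.P354XE (Tw)
open Vale.Agent.P354YA (gT KU)
open Vale.Agent.P354XF (fr)
open Vale.Agent.P354Z (sc)

section alg
variable {A B : Type} [CommRing A] [Algebra ℂ A] [CommRing B] [Algebra ℂ B] {φ : A →ₐ[ℂ] B}

theorem hom_K {K : Hp A} {K' : Hp B} {p : Pm A} {p' : Pm B} {u : B}
    (c : ∀ f, φ (K.c f) = K'.c (φ f)) (z : ∀ i, i ≠ 0 → φ (K.z i) = K'.z i)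
    (d : ∀ i f, φ (K.d i f) = K'.d i (φ f) - (if i = 1 then u else 0) * K'.d 0 (φ f))
    (Ni : φ K.Ni = K'.Ni) (a : φ p.a = p'.a) (M : φ p.M = p'.M) (sg : φ p.sg = p'.sg)
    (h1 : p'.h1 = φ p.h1 + u) (j : p.j1 = 0) (j' : p'.j1 = 0) :
    GHP.Hom (kk K p).kerr (kk K' p').kerr φ ∧ φ (kk K p).z = (kk K' p').z := by
  have z1 := z 1 (by decide)
  have z2 := z 2 (by decide)
  have z3 := z 3 (by decide)
  have z4 := z 4 (by decide)
  have z5 := z 5 (by decide)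
  have k : KD (fun f q => φ f = q) (kk K p) (kk K' p') := by
    refine ⟨⟨rr_hom φ, z1, ?_, ?_, ?_, ?_, Ni, sg, a, M⟩, fun e => e ▸ c _, fun e => e ▸ ?_,
      fun e => e ▸ ?_, fun e => e ▸ ?_, fun e => e ▸ ?_, fun e => e ▸ ?_, fun e => e ▸ ?_⟩
    case refine_6 => simp [kk_R, Hp.kc, d, h1, j, j']; ring
    all_goals
      simp [kk, Hp.kc, Hp.N, Hp.P_ap, Hp.Q_ap, Hp.H_ap, Hp.B_ap, d, z2, z3, z4, z5, Ni, map_ofNat]
  have o := map_zero φ
  exact ⟨⟨c, fun _ => k.fr 0 rfl, fun _ => k.fr 1 rfl, fun _ => k.fr 2 rfl, fun _ => k.fr 3 rfl,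
    fun _ => k.H rfl, fun _ => k.B rfl, o, o, k.rh, k.ta, o, o, k.rh2, k.ta2, o, o, k.P2, o, o⟩, k.z⟩

theorem hom_sc {G : GHP A} {G' : GHP B} (h : GHP.Hom G G' φ) (i : Fin 13) :
    φ (sc G i) = sc G' i := by
  fin_cases i
  exacts [h.ka, h.si, h.rh, h.ta, h.ka', h.si', h.rh', h.ta', h.P0, h.P1, h.P2, h.P3, h.P4]

theorem gcl_sc {c : A →+* A} {N : Hen c} {G G0 : GHP A} (h : GCl N G G0) (i : Fin 13) :
    N.Cg (sc G i) (sc G0 i) := by
  fin_cases i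
  exacts [h.ka, h.si, h.rh, h.ta, h.ka', h.si', h.rh', h.ta', h.P0, h.P1, h.P2, h.P3, h.P4]

end alg

variable {J : Type} {m : Dm J} [Gr m.sF] (o : m.Ok)

/-- The Kerr chart v = t + r. -/
abbrev KI (G : Filter (J × E6)) [Loc G] (M a : ℝ) : KC (Sm G) :=
  kk (hp G) (pm G (fun _ => M) fun _ => a)

/-- The coordinates of the slices in the ingoing chart. -/
def yy (G : Filter (J × E6)) [Loc G] (H : ℝ → ℝ) (i : Fin 6) : Sm G :=
  (hp G).z i - if i = 0 then rg G H else 0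

theorem rs_yy {G : Filter (J × E6)} [Loc G] {H : ℝ → ℝ} (h : ContDiff ℝ ∞ H) (i : Fin 6) :
    Rs (yy G H i) fun p => zc i (shr (-H) p.2) := by
  by_cases e : i = 0
  · rw [yy, if_pos e, e]
    exact ((rs_z 0).sub (rs_rg h)).congr (.of_forall fun p => by simp [zc, shr, sub_eq_add_neg])
  · rw [yy, if_neg e, sub_zero]
    exact (rs_z i).congr (.of_forall fun p => by fin_cases i <;> first | exact absurd rfl e | rfl)

include o

theorem pi_rs {u : Sm (GI m)} {f : J × E6 → ℂ} (r : Rs u f) :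
    Rs ((sq o).pb u) fun p => f (p.1, shr m.H p.2) :=
  ((sq o).rep_pb u).trans ((sq o).tend.eventually r)

theorem pi_rg {φ : ℝ → ℝ} (h : ContDiff ℝ ∞ φ) : (sq o).pb (rg _ φ) = m.rf φ :=
  (pi_rs o (rs_rg h)).ext (Dm.rs_rf h) .rfl

theorem pi_yy (i : Fin 6) : (sq o).pb (yy _ m.H i) = m.h.z i :=
  (pi_rs o (rs_yy o.H i)).ext (rs_z i) (.of_forall fun p => by simp only [shr_neg])

theorem pi_d (i : Fin 6) (f : Sm (GI m)) : (sq o).pb ((hp _).d i f) = m.h.d i ((sq o).pb f) -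
    (if i = 1 then m.rf (deriv m.H) else 0) * m.h.d 0 ((sq o).pb f) := by
  rw [(sq o).map (P354XO.vf_d i), (sq o).push_eq_z (P354XO.vf_d i) ((P354XO.vf_d i).sub
    ((P354XO.vf_d 0).smul (if i = 1 then m.rf (deriv m.H) else 0))) fun k => ?_]
  · rfl
  rw [(sq o).cmp_eq (rs_yy o.H k), yy, D_sub, P354XO.d_z]
  show _ = m.h.d i _ - _ * m.h.d 0 _
  rw [P354XO.d_z, P354XO.d_z]
  by_cases e : k = 0
  · rw [if_pos e, if_pos e.symm, d_rg o.H, map_sub, mul_one]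
    split_ifs <;> simp [pi_rg o (contDiff_infty_iff_deriv.1 o.H).2]
  · rw [if_neg e, if_neg (Ne.symm e)]
    split_ifs <;> simp

theorem pi_K (M a : ℝ) : GHP.Hom (KI (GI m) M a).kerr (m.K0 M a).kerr (sq o).pb ∧
    (sq o).pb (KI (GI m) M a).z = (m.K0 M a).z :=
  hom_K (sq o).pb_cj (fun i e => by rw [← pi_yy o i, yy, if_neg e, sub_zero]) (pi_d o)
    ((pi_rs o (rs_Ni (sq o).o)).ext (rs_Ni o.off) .rfl) ((sq o).pb_cst _) ((sq o).pb_cst _)
    ((pi_rs o (rs_sg (pos_GI o) _ _)).ext (rs_sg o.pos (fun _ => M) fun _ => a) .rfl)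
    (by rw [show (pm (GI m) (fun _ => M) fun _ => a).h1 = 1 from rfl, map_one]; rfl) rfl rfl

theorem rho_K (M a : ℝ) : GHP.Hom (KI (GI m) M a).kerr (KI (GS m) M a).kerr (rxS o).rix :=
  have h := (rxS o).hp (sq o).o
  (hom_K (u := 0) (p := pm (GI m) (fun _ => M) fun _ => a) (p' := pm (GS m) (fun _ => M) fun _ => a)
    h.c (fun i _ => h.z i) (fun i f => by rw [h.d, ite_self, zero_mul, sub_zero]) h.Ni
    ((rxS o).rix_cst fun _ => a) ((rxS o).rix_cst fun _ => M)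
    (((rxS o).rs (rs_sg (pos_GI o) _ _)).ext
      (rs_sg ((rxS o).ev (pos_GI o)) (fun _ => M) fun _ => a) .rfl)
    (by rw [show (pm (GI m) (fun _ => M) fun _ => a).h1 = 1 from rfl, map_one, add_zero]; rfl)
    rfl rfl).1

theorem bd_yy (i : Fin 6) : ∃ c, Bd (yy (GS m) m.H i - cst c) := by
  have r := regS o one_pos 0
  by_cases e : i = 0
  · refine ⟨fun q => m.tt q, dom_of wgt_one (dom0_of wgt_one ((rs_yy o.H i).sub (rs_cst _)) 0
      fun θ => ⟨0, le_rfl, .of_forall fun q x hx => ?_⟩) fun v => ?_⟩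
    · have : (shr (-m.H) x).1 = m.tt q := hx.1
      simp [e, zc, this]
    · rw [D_sub, pd_cst, sub_zero, yy, if_pos e, D_sub,
        show pd v ((hp (GS m)).z i) = _ from pd_clm v (zc i)]
      exact (bd_alg _).sub wgt_one ((bd_rg r o.H).pd v)
  · refine ⟨fun _ => 0, ?_⟩
    rw [yy, if_neg e, sub_zero, show (cst fun _ => 0 : Sm (GS m)) = 0 from rfl, sub_zero]
    exact r.z i e

variable {M a : ℝ} {g : J → Tw} {μ ν : ℕ → m.Q → ℝ} (h : Hy (m := m) M a g μ ν)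
include h

omit o in
theorem Hy.wt : P354RI.Wt m.sF μ ν := ⟨h.wμ, h.wν, h.sν, h.le⟩

/-- The bounded, the negligible and the small elements. -/
def Hy.tri : Tri (cj : m.S →+* m.S) :=
  (h.wt.tri (m.sl.K SA)).comap (o.rx le_rfl) cj_cj (o.rx_cj le_rfl)

theorem Hy.cs {u u' : Sm (GI m)}
    (c : (P354XD.henG (KS m) h.wν h.sν).Cg ((rxS o).rix u) ((rxS o).rix u')) :
    (h.tri o).Cs ((sq o).pb u) ((sq o).pb u') :=
  ⟨da_pb o wgt_one c.1, by
    rw [← map_sub]; exact da_pb o h.wν (by rw [map_sub]; exact c.2)⟩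

theorem Hy.frS (b : Fin 6) {f : Sm (GS m)} {c : m.Q → ℂ} (e : Bd (f - cst c)) :
    (P354XD.henG (KS m) h.wν h.sν).Cg (fr (gT (GS m) M a fun q => g (m.ka q)) b f)
      (fr (KI (GS m) M a).kerr b f) := by
  have k := Hen.Cg.refl (N := P354XD.henG (KS m) h.wν h.sν) e
  have n := (h.near o).2
  have s := (regS o h.M0 a).stb h.wν h.sν (1 / 2) fun q => g (m.ka q)
  rw [← sub_zero (fr _ b f), ← sub_zero (fr (KI (GS m) M a).kerr b f), ← vf_cst (vf_K _ b) c,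
    ← D_sub, vf_cst (vf_K _ b) c, ← vf_cst (vf_gT b) c, ← D_sub]
  fin_cases b
  exacts [n.th k, n.tp k, n.et k, n.ep k, s.H k, s.Hb k]

omit h in
theorem pi_G : GHP.Hom (gT (GI m) M a g) (GG o M a g) (sq o).pb := (sq o).hom (gv_of vf_gT) rfl

variable (k : KCN)
include k

theorem Hy.rho : GHP.Hom (gT (GI m) M a g) (gT (GS m) M a fun q => g (m.ka q)) (rxS o).rix :=
  gT_rx (rxS o) (h.ku o k)

theorem Hy.scz (i : Fin 13) : (h.tri o).Cs (sc (GG o M a g) i) (sc (m.K0 M a).kerr i) := by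
  rw [← hom_sc (pi_G o), ← hom_sc (pi_K o M a).1]
  refine h.cs o ?_
  rw [hom_sc (h.rho o k), hom_sc (rho_K o M a)]
  exact gcl_sc (h.near o).2 i

theorem Hy.frz (b i : Fin 6) :
    (h.tri o).Cs (fr (GG o M a g) b (m.h.z i)) (fr (m.K0 M a).kerr b (m.h.z i)) := by
  rw [← pi_yy o, ← hom_fr (pi_G o), ← hom_fr (pi_K o M a).1]
  refine h.cs o ?_
  obtain ⟨c, e⟩ := bd_yy o i
  rw [hom_fr (h.rho o k), hom_fr (rho_K o M a),
    ((rxS o).rs (rs_yy o.H i)).ext (rs_yy o.H i) .rfl]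
  exact h.frS o b e

theorem Hy.P04 : o.DA μ (GG o M a g).P0 ∧ o.DA μ (GG o M a g).P4 := by
  obtain ⟨e, be, he⟩ := frm_inv (regS o h.M0 a) h.wν h.sν
    (X := fr (gT (GS m) M a fun q => g (m.ka q))) fun b i => by
      obtain ⟨c, e⟩ := bd_yy o i
      refine h.frS o b (c := c) ?_
      have := e.add wgt_one (show Bd (if i = 0 then rg (GS m) m.H else 0) by
        split_ifs
        exacts [bd_rg (regS o h.M0 a) o.H, dom_zero wgt_one])
      rwa [yy, sub_right_comm, sub_add_cancel] at this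
  obtain ⟨h0, h4⟩ := dom_P (g := fun q => g (m.ka q)) (h.kuS o) be he h.wμ (h.etaS o k)
  rw [← (h.rho o k).P0] at h0
  rw [← (h.rho o k).P4] at h4
  exact ⟨da_pb o h.wμ h0, da_pb o h.wμ h4⟩

end Vale.Agent.P354RN
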