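import Vale.Agent.P354RN.Pi

/-!
The time derivative on the base curve.
-/

open scoped ContDiff
open Set Filter Topology

noncomputable section

namespace Vale.Agent.P354RN

open Vale.Agent.P354XG hiding Dom Dom0 Bd bdSub domI Keeps Low dom0_mk dom0_zero dom0_cst dom_of
  dom_zero dom_cst bd_alg dom_sum dom0_sum keeps_pd keeps_zero keeps_sum bd_closure dom_pb_aff
  bd_fn bd_par Conn gron gron0 dom_of_sys dom_sub_ev0 Mp
open Vale.Agent.P354MG Vale.Agent.P354XD Vale.Agent.P354XR Vale.Agent.P354RI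
open Vale.Agent.P354XG.Geo (hf two_hf)
open Vale.Agent.P354XO (VF)
open Vale.Agent.P354XE (Tw eT)
open Vale.Agent.P354XF (fr)
open Vale.Agent.P354RI.Tri (rr_cs Cs)

section alg
variable {A B : Type} [CommRing A] [Algebra ℂ A] [CommRing B] [Algebra ℂ B] {φ : A →ₐ[ℂ] B}
  {G : GHP A} {f : A}

/-- The field which is dual to the gradient of P2, and its small part. -/
def ZG (G : GHP A) (f : A) : A :=
  G.tp G.P2 * G.th f - G.th G.P2 * G.tp f - G.ep G.P2 * G.et f + G.et G.P2 * G.ep f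
def Er (G : GHP A) (f : A) : A :=
  G.si * G.th f * G.P4 - G.si' * G.tp f * G.P0 - G.ka * G.et f * G.P4 + G.ka' * G.ep f * G.P0

theorem zg_eq (i : G.Is) (h1 : G.P1 = 0) (h3 : G.P3 = 0) (f : A) :
    ZG G f = 3 * G.P2 * Yf G f + Er G f := by
  have e1 : G.tp G.P2 = 3 * G.rh' * G.P2 + G.si * G.P4 := i.pr.tr_th h3 h1
  have e2 : G.ep G.P2 = 3 * G.ta' * G.P2 + G.ka * G.P4 := i.pr.tr_et h3 h1
  simp only [ZG, Er, Yf, e1, e2, i.tr_th h1 h3, i.tr_et h1 h3, Derivation.add_apply,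
    Derivation.sub_apply, Derivation.smul_apply, smul_eq_mul]
  ring

theorem hom_zg {G' : GHP B} (h : GHP.Hom G G' φ) (f : A) : φ (ZG G f) = ZG G' (φ f) := by
  simp only [ZG, map_add, map_sub, map_mul, h.th, h.tp, h.et, h.ep, h.P2]

theorem yf_ap (G : GHP A) (f : A) : Yf G f =
    G.rh' * fr G 0 f - G.rh * fr G 1 f - G.ta' * fr G 2 f + G.ta * fr G 3 f := by simp [Yf, fr]

theorem c_yf (i : G.Is) (e : G.c f = f) : G.c (Yf G f) = Yb G f := by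
  simp [Yf, Yb, i.c_th, i.c_tp, i.c_et, i.c_ep, e]

theorem yf_kerr {K : KC A} (h : K.Is) (P : K.P f = 0) (Q : K.Q f = 0) (H : K.H f = 0)
    (B : K.B f = 0) : Yf K.kerr f = 2 * K.z * K.T f := by
  have e : K.z * K.zb = K.sg := by rw [KC.zb]; linear_combination K.sg * h.z_ze
  simp only [Yf, KC.kerr, Derivation.add_apply, Derivation.sub_apply, Derivation.smul_apply,
    smul_eq_mul, KC.th, KC.tp, KC.et, KC.ep, KC.V_ap, KC.rh, KC.rh2, KC.ta, KC.ta2, KC.W, P, Q, H, B]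
  linear_combination 2 * K.z * K.sg * (K.r * K.r + K.a * K.a) * K.T f * h.hN +
    ii A * ii A * K.a * K.a * K.z * K.s * K.sb * K.T f * e +
    2 * K.a * K.a * K.sg * K.z * K.s * K.sb * K.T f * ii_sq (A := A) -
    2 * K.a * K.a * K.sg * K.z * K.T f * h.hs + 2 * K.z * K.T f * h.hg

theorem z1_eq {K : Hp A} (k : K.Is) (W : Der A) : W (K.z 1) = ∑ d, K.om d * W (K.co d) := by
  have p := k.prods.1
  have q := congrArg W p
  have o : K.om 0 = 0 := rfl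
  simp only [Fin.sum_univ_four, D_add, D_mul, D_one, Hp.co, Hp.e0, Matrix.cons_val, o,
    D_zero] at p q ⊢
  linear_combination -W (K.z 1) * p - K.z 1 * hf A * q + K.z 1 * (K.om 1 * W (K.om 1) +
    K.om 2 * W (K.om 2) + K.om 3 * W (K.om 3)) * two_hf (A := A)

end alg

theorem cube {R M : ℝ} (hR : 0 < R) (hM : 0 < M) {q : ℂ}
    (h : ‖q * (R ^ 3 * -(2 * M : ℂ)⁻¹) - 1‖ < 1 / 2) : (-2 * M / q) ^ (1 / 3 : ℂ) =
      R * Complex.exp (-(1 / 3) * Complex.log (q * (R ^ 3 * -(2 * M : ℂ)⁻¹))) := by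
  have s := slit h
  have u := Complex.slitPlane_ne_zero s
  have r := Complex.ofReal_ne_zero.2 hR.ne'
  have m := Complex.ofReal_ne_zero.2 hM.ne'
  have e : -2 * M / q = (R ^ 3 : ℝ) * (q * (R ^ 3 * -(2 * M : ℂ)⁻¹))⁻¹ := by
    have := left_ne_zero_of_mul u
    push_cast; field_simp
  generalize q * (R ^ 3 * -(2 * M : ℂ)⁻¹) = v at s u e ⊢
  rw [e, Complex.cpow_def_of_ne_zero (mul_ne_zero (Complex.ofReal_ne_zero.2 (pow_pos hR 3).ne')
    (inv_ne_zero u)), Complex.log_ofReal_mul (pow_pos hR 3) (inv_ne_zero u),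
    Complex.log_inv _ (Complex.slitPlane_arg_ne_pi s), Real.log_pow]
  conv_rhs => rw [← Real.exp_log hR, Complex.ofReal_exp, ← Complex.exp_add]
  congr 1
  push_cast
  ring

theorem rs_e0 {J : Type} {G : Filter (J × E6)} [Loc G] (b : Fin 4) :
    Rs (Hp.e0 (Sm G) b) fun _ => (P354YN.co eT b : ℝ) := by
  fin_cases b
  exacts [rs_one, rs_zero, rs_zero, rs_zero]

variable {J : Type} (m : Dm J)

/-- The coordinates of the ingoing chart, and a constant. -/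
def ci (b : Fin 4) : m.S := m.h.co b + Hp.e0 _ b * m.rf m.H
def kp (M : ℝ) : m.S := algebraMap ℂ _ (m.R1 ^ 3 * -(2 * M : ℂ)⁻¹)

variable {m} [Gr m.sF] (o : m.Ok)
include o

theorem H_bs (f : m.S) : m.h.H (o.bs f) = 0 ∧ m.h.B (o.bs f) = 0 := by
  simp [Hp.H_ap, Hp.B_ap, o.d_bs]

theorem bs_lg {f : m.S} (n : Nr (o.bs f)) : o.bs (lg (o.bs f)) = lg (o.bs f) := by
  have r := n.rs.congr ((o.rs_bs f).mono fun p k => congrArg Complex.log k)
  exact Rs.ext ((o.mp.rep_pb _).trans (o.mp.ev r)) r (.of_forall fun p => by simp [aff, Dm.pt])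

theorem bs_K {M : ℝ} (hM : 0 < M) (a : ℝ) : o.bs (m.K0 M a).z * algebraMap ℂ _ m.R1 = 1 ∧
    o.bs (m.K0 M a).P2 * kp m M = 1 := by
  have r : o.bs (m.K0 M a).r = algebraMap ℂ _ m.R1 := o.bs_z 1
  have x : o.bs (m.K0 M a).x = 0 := by
    show o.bs ((m.h.z 2 * m.h.z 4 - m.h.z 3 * m.h.z 5) * m.h.Ni) = 0
    simp [o.bs_z]
  have g := congrArg o.bs (o.K0 M a).z_ze
  simp only [map_mul, map_sub, r, x, mul_zero, sub_zero, map_one] at g
  have e : o.bs (m.K0 M a).M = algebraMap ℂ _ M := o.bs.commutes _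
  have k : kp m M * -(2 * algebraMap ℂ m.S M) = algebraMap ℂ _ m.R1 ^ 3 := by
    rw [kp, ← map_ofNat (algebraMap ℂ m.S) 2, ← map_mul, ← map_neg, ← map_mul, ← map_pow]
    have := Complex.ofReal_ne_zero.2 hM.ne'
    congr 1
    field_simp
  refine ⟨g, ?_⟩
  simp only [KC.P2, map_neg, map_mul, map_ofNat, e]
  linear_combination o.bs (m.K0 M a).z ^ 3 * k + ((o.bs (m.K0 M a).z * algebraMap ℂ _ m.R1) ^ 2 +
    o.bs (m.K0 M a).z * algebraMap ℂ _ m.R1 + 1) * g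

theorem yf_K (M a : ℝ) : Yf (m.K0 M a).kerr (ci m 0) = 2 * (m.K0 M a).z := by
  have d : ∀ i, m.h.d i (ci m 0) = (if i = 0 then 1 else 0) +
      if i = 1 then m.rf (deriv m.H) else 0 := fun i => by
    simp [ci, Hp.co, Hp.e0, Hp.om, D_add, Dm.d_rf o.H, o.is.dz]
  rw [yf_kerr (o.K0 M a)] <;> simp [Dm.K0, kk, Hp.kc, Hp.P_ap, Hp.Q_ap, Hp.H_ap, Hp.B_ap, d]

omit [Gr m.sF] o in
theorem vf_ci (H : ContDiff ℝ ∞ m.H) {W : Der m.S} (v : VF W) (b : Fin 4) :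
    W (ci m b) = W (m.h.co b) + Hp.e0 _ b * (m.rf (deriv m.H) * W (m.h.z 1)) := by
  rw [ci, D_add, D_mul, Hp.D_e0, vf_ap v (m.rf _)]
  simp [Dm.d_rf H, mul_comm]

variable {M a : ℝ} {g : J → Tw} {μ ν : ℕ → m.Q → ℝ} (h : Hy (m := m) M a g μ ν) {f f' : m.S}
include h

theorem Hy.bsB (e : f ∈ (h.tri o).B) : o.bs f ∈ (h.tri o).B := (Dm.Ok.DA.db e).bs
theorem Hy.bsI (e : f ∈ (h.tri o).I) : o.bs f ∈ (h.tri o).I := (Dm.Ok.DA.db e).bs
theorem Hy.bsC (e : (h.tri o).Cs f f') : (h.tri o).Cs (o.bs f) (o.bs f') :=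
  ⟨h.bsB o e.1, map_sub o.bs f f' ▸ (Dm.Ok.DA.db e.2).bs⟩

theorem Hy.nr (e : (h.tri o).Cs (o.bs f) 1) : Nr (o.bs f) :=
  Dm.Ok.DA.nr (o := o) e.2 h.sν (H_bs o f).1 (H_bs o f).2

theorem Hy.exc (e : f ∈ (h.tri o).S) : (h.tri o).Cs (ex f) 1 := ⟨one_mem _, by
  show Dom ν (o.rx le_rfl _)
  rw [map_sub, map_one, Dm.Ok.rx, rix_ex]
  exact dom_ex h.wν h.sν e⟩

theorem Hy.lgc (n : Nr f) (e : (h.tri o).Cs f 1) : lg f ∈ (h.tri o).S := by
  show Dom ν ((o.rxx le_rfl).rix _)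
  rw [n.rix_lg]
  refine dom_lg h.wν h.sν (n.rix _) ?_
  have : Dom ν ((o.rxx le_rfl).rix _) := e.2
  rwa [map_sub, map_one] at this

theorem Hy.dci (i : Fin 6) (b : Fin 4) : m.h.d i (ci m b) ∈ (h.tri o).B := by
  rw [ci, D_add, D_mul, Hp.D_e0, mul_zero, add_zero, Dm.d_rf o.H]
  refine add_mem ?_ (mul_mem (e0_mem b) ?_)
  · show Bd (o.rx le_rfl _)
    rw [(o.hh le_rfl).d, (o.hh le_rfl).co, hp_d]
    exact ((bd_alg _).bmul wgt_one ((o.reg le_rfl h.M0 a).co b _)).add wgt_one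
      ((bd_alg _).bmul wgt_one ((o.reg le_rfl h.M0 a).co b _))
  · split_ifs
    exacts [o.bd_rf le_rfl (contDiff_infty_iff_deriv.1 o.H).2, zero_mem _]

omit h in
theorem vf_GG (b : Fin 6) : VF (fr (GG o M a g) b) := by
  have v := (sq o).gv (S := P354YA.gT (GI m) M a g)
  fin_cases b
  exacts [v.th, v.tp, v.et, v.ep, v.H, v.Hb]

variable (k : KCN)
include k

theorem Hy.is : (GG o M a g).Is := (sq o).is (gv_of vf_gT) rfl (P354YA.gT_is (h.ku o k))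

theorem Hy.P13 : (GG o M a g).P1 = 0 ∧ (GG o M a g).P3 = 0 := by
  rw [← (pi_G o).P1, ← (pi_G o).P3, (P354YA.fT_wn (h.ku o k)).2.1, (P354YA.fT_wn (h.ku o k)).2.2,
    map_zero, and_self]

theorem Hy.fci (d : Fin 6) (b : Fin 4) :
    (h.tri o).Cs (fr (GG o M a g) d (ci m b)) (fr (m.K0 M a).kerr d (ci m b)) := by
  rw [vf_ap (vf_GG o d), Dm.K0, vf_ap (vf_K _ d)]
  exact rr_cs.sum fun i => rr_cs.mul (h.frz o k d i) (.refl (h.dci o i b))

theorem Hy.er (b : Fin 4) : Er (GG o M a g) (ci m b) ∈ (h.tri o).I := by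
  have u : ∀ i d, ∀ f ∈ (h.tri o).I,
      P354Z.sc (GG o M a g) i * fr (GG o M a g) d (ci m b) * f ∈ (h.tri o).I := fun i d f e =>
    (h.tri o).mI _ (mul_mem (h.scz o k i).mem (h.fci o k d b).mem) f e
  obtain ⟨p0, p4⟩ := h.P04 o k
  exact add_mem (sub_mem (sub_mem (u 1 0 _ p4) (u 5 1 _ p0)) (u 0 2 _ p4)) (u 4 3 _ p0)

theorem Hy.yf : (h.tri o).Cs (Yf (GG o M a g) (ci m 0)) (2 * (m.K0 M a).z) := by
  rw [← yf_K o, yf_ap, yf_ap]
  exact rr_cs.add (rr_cs.sub (rr_cs.sub (rr_cs.mul (h.scz o k 6) (h.fci o k 0 0))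
    (rr_cs.mul (h.scz o k 2) (h.fci o k 1 0))) (rr_cs.mul (h.scz o k 7) (h.fci o k 2 0)))
    (rr_cs.mul (h.scz o k 3) (h.fci o k 3 0))

theorem Hy.uu : (h.tri o).Cs (o.bs ((GG o M a g).P2 * kp m M)) 1 := by
  rw [← (bs_K o h.M0 a).2, map_mul, kp, o.bs.commutes]
  exact rr_cs.mul (h.bsC o (h.scz o k 10)) (rr_cs.alg _)

end Vale.Agent.P354RN
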