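import Vale.Agent.P354RN.Sl

/-!
From the words in the frame to the derivatives in the chart.
-/

open scoped ContDiff
open Set Filter Topology

noncomputable section

namespace Vale.Agent.P354RN

open Vale.Agent.P354XG hiding Dom Dom0 Bd bdSub domI Keeps Low dom0_mk dom0_zero dom0_cst dom_of
  dom_zero dom_cst bd_alg dom_sum dom0_sum keeps_pd keeps_zero keeps_sum bd_closure dom_pb_aff
  bd_fn bd_par Conn gron gron0 dom_of_sys dom_sub_ev0 Mp
open Vale.Agent.P354MG Vale.Agent.P354XD Vale.Agent.P354XR Vale.Agent.P354RI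
open Vale.Agent.P354XO (VF)
open Vale.Agent.P354XE (Tw)
open Vale.Agent.P354YA (gT KU GU qq etG rx_of gT_hom qq_mono qq_nonneg)
open Vale.Agent.P354XF (fr)
open Vale.Agent.P354Z (f4)

section alg
variable {A : Type} [CommRing A] [Algebra ℂ A] {G : GHP A} {f : A}

/-- f has constant weights. -/
def Wt (G : GHP A) (f : A) : Prop :=
  ∃ p q : ℂ, G.H f = algebraMap ℂ A p * f ∧ G.Hb f = algebraMap ℂ A q * f

theorem Wt.f4 (w : Wt G f) (i : G.Is) (b : Fin 4) : Wt G (f4 G b f) := by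
  obtain ⟨p, q, h1, h2⟩ := w
  refine ⟨p + ![1, -1, 1, -1] b, q + ![1, -1, -1, 1] b, ?_, ?_⟩ <;> fin_cases b <;>
    simp only [P354Z.f4, Fin.reduceFinMk, Matrix.cons_val, i.H_th, i.H_tp, i.H_et, i.H_ep, i.Hb_th,
      i.Hb_tp, i.Hb_et, i.Hb_ep, h1, h2, D_mul, D_alg, map_add, map_neg, map_one] <;> ring

theorem wt_P (i : G.Is) : Wt G G.P0 ∧ Wt G G.P4 :=
  ⟨⟨4, 0, by rw [i.H_P0, map_ofNat], by rw [i.Hb_P0, map_zero, zero_mul]⟩,
    -4, 0, by rw [i.H_P4, map_neg, map_ofNat, neg_mul], by rw [i.Hb_P4, map_zero, zero_mul]⟩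

end alg

variable {J : Type}

section gen
variable {G : Filter (J × E6)} [Loc G]

theorem vf_ap {X : Der (Sm G)} (h : VF X) (f : Sm G) :
    X f = ∑ k, X ((hp G).z k) * (hp G).d k f := by
  conv_lhs => rw [h.eq_z]
  simp [Fin.sum_univ_six]

theorem vf_cst {X : Der (Sm G)} (h : VF X) (c : J → ℂ) : X (cst c) = 0 := by
  simp [vf_ap h (cst c), hp_d, pd_cst]

theorem vf_K (p : Pm (Sm G)) (b : Fin 6) : VF (fr (kk (hp G) p).kerr b) := by
  rw [fr_kc, Vv, kk_V]; exact P354XO.vf_V ..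

omit [Loc G] in
theorem rU {M a : ℝ} {g : J → Tw} (h : ∀ᶠ p : J × E6 in G, p.2 ∈ KU M a (g p.1)) :
    P354YA.Rx G (GU M a) g := rx_of h

/-- The homomorphism from the family of all metrics. -/
def uH {M a : ℝ} {g : J → Tw} (h : ∀ᶠ p : J × E6 in G, p.2 ∈ KU M a (g p.1)) :
    Sm (GU M a) →ₐ[ℂ] Sm G := (rU h).rix

theorem hU {M a : ℝ} {g : J → Tw} (h : ∀ᶠ p : J × E6 in G, p.2 ∈ KU M a (g p.1)) :
    GHP.Hom (gT (GU M a) M a id) (gT G M a g) (uH h) := gT_hom h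

theorem uH_z {M a : ℝ} {g : J → Tw} (h : ∀ᶠ p : J × E6 in G, p.2 ∈ KU M a (g p.1))
    (i : Fin 6) : uH h ((hp _).z i) = (hp G).z i :=
  ((rU h).rs (rs_z i)).ext (rs_z i) EventuallyEq.rfl

theorem d_of {X : Fin 6 → Der (Sm G)} (v : ∀ b, VF (X b)) {e : Fin 6 → Fin 6 → Sm G}
    (he : ∀ i k, ∑ b, e i b * X b ((hp G).z k) = if i = k then 1 else 0) (i : Fin 6) (f : Sm G) :
    (hp G).d i f = ∑ b, e i b * X b f := by
  simp only [fun b => vf_ap (v b) f, Finset.mul_sum, ← mul_assoc]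
  rw [Finset.sum_comm]
  simp [← Finset.sum_mul, he]

end gen

variable {F : Filter J} {K : J → Set E6}

theorem dn_qq {G : GHP (Sm (nb F K))} (i : G.Is) {e : Fin 6 → Fin 6 → Sm (nb F K)}
    (he : ∀ i f, (hp _).d i f = ∑ b, e i b * fr G b f) {m : J → ℝ} (m0 : Wgt fun _ => m) {C : ℝ}
    (hC : 0 ≤ C) {n : ℕ} (be : ∀ i b, DN n (w1 J) (e i b)) {f : Sm (nb F K)} (w : Wt G f)
    (h : ∀ᶠ j in F, ∀ x ∈ K j, qq (f4 G) (j, x) n f ≤ (C * m j) ^ 2) : DN n (fun _ => m) f := by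
  have z : ∀ {n f}, (∀ᶠ j in F, ∀ x ∈ K j, qq (f4 G) (j, x) n f ≤ (C * m j) ^ 2) →
      P354XG.Dom0 (fun _ => m) f := fun h => ⟨0, C, hC, h.mono fun j h x hx =>
    (sq_le_sq₀ (norm_nonneg _) (mul_nonneg hC (m0.nonneg 0 j))).1
      ((qq_mono _ _ (Nat.zero_le _) _).trans (h x hx))⟩
  induction n generalizing f with
  | zero => exact dn_zero_iff.2 (z h)
  | succ n ih =>
    have ih := @ih fun i b => (be i b).le n.le_succ
    have h0 := ih w (h.mono fun j h x hx => (qq_mono _ _ n.le_succ _).trans (h x hx))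
    have h1 : ∀ b, DN n (fun _ => m) (f4 G b f) := fun b => ih (w.f4 i b) (h.mono fun j h x hx =>
      le_trans ((Finset.single_le_sum (f := fun b => qq (f4 G) (j, x) n (f4 G b f))
        (fun _ _ => qq_nonneg ..) (Finset.mem_univ b)).trans
        (le_add_of_nonneg_left (qq_nonneg ..))) (h x hx))
    obtain ⟨p, q, e1, e2⟩ := w
    refine dn_succ (z h) fun v => ?_
    rw [vf_ap (P354XO.vf_pd v)]
    refine dn_sum m0 _ fun i _ => DN.bmul m0 ?_ ?_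
    · rw [show pd v ((hp (nb F K)).z i) = _ from pd_clm v (zc i)]
      exact dn_alg _
    rw [he]
    refine dn_sum m0 _ fun b _ => DN.bmul m0 ((be i b).le n.le_succ) ?_
    fin_cases b
    exacts [h1 0, h1 1, h1 2, h1 3, e1.symm ▸ DN.bmul m0 (dn_alg p) h0,
      e2.symm ▸ DN.bmul m0 (dn_alg q) h0]

variable [Gr F] {M a : ℝ} {g : J → Tw} {μ : ℕ → J → ℝ}

theorem lf_U (ku : ∀ᶠ p : J × E6 in nb F K, p.2 ∈ KU M a (g p.1)) (u : Sm (GU M a)) :
    ∀ᶠ q : ℕ × ℕ in gr, ∀ (θ : Th F)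
      (k : ∀ᶠ p : J × E6 in nb (ph F q.2 θ) K, p.2 ∈ KU M a (g p.1)),
      lf q.2 θ (uH ku u) = uH k u :=
  (rep_lf' ((rU ku).rep u)).mono fun _ h θ k =>
    Rs.ext (h θ) ((rU k).rep u) .rfl

theorem lf_dl (i k : Fin 6) : ∀ᶠ q in gr, ∀ θ,
    lf q.2 θ (if i = k then 1 else 0 : Sm (nb F K)) = if i = k then 1 else 0 := by
  split_ifs
  exacts [lf_cst fun _ => 1, lf_zero]

theorem dom_P (ku : ∀ᶠ p in nb F K, p.2 ∈ KU M a (g p.1)) {e : Fin 6 → Fin 6 → Sm (nb F K)}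
    (be : ∀ i b, Bd (e i b))
    (he : ∀ i k, ∑ b, e i b * fr (gT _ M a g) b ((hp _).z k) = if i = k then 1 else 0) (hμ : Wgt μ)
    (h : ∀ᶠ n in gr, ∀ θ, ∃ C, 0 ≤ C ∧ ∀ᶠ j in ph F n.2 θ, ∀ x ∈ K j,
      P354YA.eta M a n.1 (g j) x ≤ (C * μ n.2 j) ^ 2) :
    Dom μ (gT (nb F K) M a g).P0 ∧ Dom μ (gT (nb F K) M a g).P4 := by
  rw [dom_iff, dom_iff, ← eventually_and]
  filter_upwards [h, evg ku, lf_U ku (gT _ M a id).P0, lf_U ku (gT _ M a id).P4,
    eventually_all.2 fun b => eventually_all.2 fun i => lf_U ku (fr (gT _ M a id) b ((hp _).z i)),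
    eventually_all.2 fun i => eventually_all.2 fun k => (lf_dl (F := F) (K := K) i k).and
      ((lf_sum Finset.univ fun b => e i b * fr (gT _ M a g) b ((hp _).z k)).and
        ((dom_iff.1 (be i k)).and
          (eventually_all.2 fun b => lf_mul (e i b) (fr (gT _ M a g) b ((hp _).z k)))))]
    with q h k h0 h4 h1 h2
  simp only [(hU _).P0, (hU _).P4, hom_fr (hU _), uH_z] at h0 h4 h1
  have s : ∀ θ f, Wt (gT (nb (ph F q.2 θ) K) M a g) f → (∀ p, qq (f4 (gT _ M a g)) p q.1 f ≤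
      etG (gT (nb (ph F q.2 θ) K) M a g) q.1 p) → DN q.1 (cw μ q.2) f := fun θ f w l => by
    obtain ⟨C, hC, h⟩ := h θ
    refine dn_qq (P354YA.gT_is (k θ)) (d_of vf_gT (e := fun i b => lf q.2 θ (e i b)) fun i j => ?_)
      (wgt_cw hμ _) hC (fun i b => (h2 i b).2.2.1 θ) w ?_
    · rw [← (h2 i j).1 θ, ← he, (h2 i j).2.1]
      exact Finset.sum_congr rfl fun b _ => by rw [(h2 i j).2.2.2, h1 b j θ (k θ)]
    · filter_upwards [h, ev_nb_on (P354YA.etG_eq (k θ) q.1)] with j h1 h2 x hx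
      exact (l _).trans ((h2 x hx).trans_le (h1 x hx))
  refine ⟨fun θ => ?_, fun θ => ?_⟩
  · rw [h0 θ (k θ)]
    exact s θ _ (wt_P (P354YA.gT_is (k θ))).1 fun p => le_add_of_nonneg_right (qq_nonneg ..)
  · rw [h4 θ (k θ)]
    exact s θ _ (wt_P (P354YA.gT_is (k θ))).2 fun p => le_add_of_nonneg_left (qq_nonneg ..)

theorem frm_inv {M a : J → ℝ} (r : Reg F K M a) (hμ : Wgt μ) (s : P354MG.Sml F μ)
    {X : Fin 6 → Der (Sm (nb F K))} (c : ∀ b i, (P354XD.henG K hμ s).Cg (X b ((hp _).z i))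
      (fr (kk (hp _) (pm _ M a)).kerr b ((hp _).z i))) : ∃ e : Fin 6 → Fin 6 → Sm (nb F K),
    (∀ i b, Bd (e i b)) ∧ ∀ i k, ∑ b, e i b * X b ((hp _).z k) = if i = k then 1 else 0 := by
  choose E bE hE using d_sp (hp_is r.pos.off) (pm_is r.pos M a) r.hb r.pb
  obtain ⟨V, bV, hV⟩ := Hen.mat_inv (N := P354XD.henG K hμ s)
    (W := Matrix.of E * Matrix.of fun b k => X b ((hp _).z k)) fun i k =>
      (Hen.Cg.sum _ fun b _ => (Hen.Cg.refl (bE i b)).mul (c b k)).to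
        ((hE i _).symm.trans ((P354XO.d_z i k).trans Matrix.one_apply.symm))
  rw [← Matrix.mul_assoc] at hV
  exact ⟨fun i b => (V * Matrix.of E) i b,
    fun i b => dom_sum wgt_one _ fun d _ => Dom.bmul wgt_one (bV i d) (bE d b),
    fun i k => (congrFun (congrFun hV i) k).trans Matrix.one_apply⟩

end Vale.Agent.P354RN
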