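import Vale.Agent.P354MG.Asm

/-!
The windows from the decay.
-/

open Set Filter Topology

noncomputable section

namespace Vale.Agent.P354RN

open Vale.Agent.P354XG (E6)
open Vale.Agent.P354XD (pj)
open Vale.Agent.P354MG
open Vale.Agent.P354XO (Om)
open Vale.Agent.P354YA (eta)
open Vale.Agent.P354CQ (w0 w0_le)
open Vale.Agent.P354PA (Pa Ta)

theorem w0_pos (u : ℝ) : 0 < w0 u := Real.rpow_pos_of_pos (by positivity) _

theorem cw {K a b : ℝ} (hK : 2 ≤ K) (h : 1 + |a| ≤ 2 * |b| + K) : w0 b ≤ K ^ 2 * w0 a := by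
  have h1 : (K * (1 + |b|)) ^ (-(7 / 5) : ℝ) ≤ w0 a :=
    Real.rpow_le_rpow_of_nonpos (by positivity) (by nlinarith [abs_nonneg b]) (by norm_num)
  have h2 : 1 ≤ K ^ 2 * K ^ (-(7 / 5) : ℝ) := by
    rw [← Real.rpow_two, ← Real.rpow_add (by linarith)]
    exact Real.one_le_rpow (by linarith) (by norm_num)
  rw [Real.mul_rpow (by linarith) (by positivity)] at h1
  calc w0 b ≤ K ^ 2 * K ^ (-(7 / 5) : ℝ) * w0 b := le_mul_of_one_le_left (w0_pos b).le h2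
    _ ≤ _ := by rw [mul_assoc]; exact mul_le_mul_of_nonneg_left h1 (by positivity)

theorem pw {c d : ℝ} (hc : 0 ≤ c) (h : -c ≤ d) :
    1 ≤ 16 * (1 + c) ^ 2 * 2 ^ c * w0 d * 2 ^ d := by
  have h1 : 1 ≤ (1 + |d|) ^ 2 * w0 d := by
    rw [w0, ← Real.rpow_two, ← Real.rpow_add (by positivity)]
    exact Real.one_le_rpow (by linarith [abs_nonneg d]) (by norm_num)
  have h2 : 1 + (d + c) ≤ 4 * 2 ^ ((d + c) / 2) := by
    rw [Real.rpow_def_of_pos two_pos]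
    nlinarith [Real.add_one_le_exp (Real.log 2 * ((d + c) / 2)), Real.log_two_gt_d9]
  have h3 : 1 + |d| ≤ (1 + c) * (4 * 2 ^ ((d + c) / 2)) :=
    le_trans (by cases abs_cases d <;> nlinarith) (mul_le_mul_of_nonneg_left h2 (by linarith))
  have h4 := pow_le_pow_left₀ (by positivity) h3 2
  rw [mul_pow, mul_pow, ← Real.rpow_natCast (2 ^ _), ← Real.rpow_mul two_pos.le,
    show (d + c) / 2 * (2 : ℕ) = c + d by push_cast; ring, Real.rpow_add two_pos] at h4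
  nlinarith [mul_le_mul_of_nonneg_right h4 (w0_pos d).le]

theorem peetre (a b : ℝ) : w0 (a - b) * w0 b ≤ w0 a := by
  rw [w0, w0, ← Real.mul_rpow (by positivity) (by positivity)]
  refine Real.rpow_le_rpow_of_nonpos (by positivity) ?_ (by norm_num)
  have := abs_add_le (a - b) b
  rw [sub_add_cancel] at this
  nlinarith [abs_nonneg (a - b), abs_nonneg b, mul_nonneg (abs_nonneg (a - b)) (abs_nonneg b)]

/-- The past and the tail from the decay. -/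
theorem pa_ta {c : ℝ} (hc : 0 ≤ c) : ∃ K ≥ (1 : ℝ), ∀ (Y : Type) (S : Set Y) (tm f : Y → ℝ)
    (e0 c0 ε t : ℝ), c0 ≤ c → -c ≤ t → 0 ≤ ε → e0 ≤ ε → (∀ y ∈ S, f y ≤ (ε * w0 (tm y)) ^ 2) →
    Pa S tm f e0 c0 t (K * ε * w0 t) ∧ Ta S tm f c0 t (K * ε ^ 2 * w0 t) := by
  have s : Summable fun j : ℕ => w0 j := by
    refine ((summable_nat_add_iff 1).2 (Real.summable_nat_rpow.2
      (show (-(7 / 5) : ℝ) < -1 by norm_num))).congr fun j => ?_
    rw [w0, Nat.abs_cast, add_comm, Nat.cast_add, Nat.cast_one, add_comm]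
  obtain ⟨Z, hZ⟩ : ∃ Z, Z = ∑' j : ℕ, w0 j := ⟨_, rfl⟩
  have Z0 : 0 ≤ Z := hZ ▸ tsum_nonneg fun j => (w0_pos _).le
  obtain ⟨P, hP⟩ : ∃ P, P = 16 * (1 + c) ^ 2 * 2 ^ c := ⟨_, rfl⟩
  have P0 : 0 ≤ P := by rw [hP]; positivity
  have Q0 : 0 ≤ (2 + 2 * c) ^ 2 * (2 + 2 * c) ^ 2 * Z := by positivity
  refine ⟨1 + P + (2 + 2 * c) ^ 2 * (2 + 2 * c) ^ 2 * Z, by linarith,
    fun Y S tm f e0 c0 ε t h1 h2 h3 h4 h5 => ⟨Pa.mono (A := P * ε * w0 t) ⟨?_, fun y hy l => ?_⟩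
      (by have := w0_pos t; positivity) (by have := w0_pos t; gcongr; linarith),
      fun j => (2 + 2 * c) ^ 2 * (2 + 2 * c) ^ 2 * w0 j * ε ^ 2 * w0 t, fun j => ?_, fun k => ?_,
      fun y hy j l _ => (h5 y hy).trans ?_⟩⟩
  · have := pw hc h2
    rw [← hP] at this
    nlinarith
  · refine (h5 y hy).trans (pow_le_pow_left₀ (mul_nonneg h3 (w0_pos _).le) ?_ 2)
    have a := pw hc (show -c ≤ t - tm y by linarith)
    rw [← hP] at a
    have e : w0 (t - tm y) * w0 (tm y) ≤ w0 t := peetre t (tm y)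
    calc ε * w0 (tm y) ≤ P * w0 (t - tm y) * 2 ^ (t - tm y) * (ε * w0 (tm y)) :=
          le_mul_of_one_le_left (mul_nonneg h3 (w0_pos _).le) a
      _ = P * ε * (w0 (t - tm y) * w0 (tm y)) * 2 ^ (t - tm y) := by ring
      _ ≤ _ := by gcongr
  · have := w0_pos t
    have := w0_pos j
    positivity
  · have := w0_pos t
    rw [← Finset.sum_mul, ← Finset.sum_mul, ← Finset.mul_sum]
    have := s.sum_le_tsum (Finset.range k) fun j _ => (w0_pos _).le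
    rw [← hZ] at this
    gcongr
    exact (mul_le_mul_of_nonneg_left this (by positivity)).trans (by linarith)
  · have j0 : (0 : ℝ) ≤ j := j.cast_nonneg
    have a : w0 (tm y) ≤ (2 + 2 * c) ^ 2 * w0 t := cw (by linarith) (by
      cases abs_cases t <;> linarith [le_abs_self (tm y), abs_nonneg (tm y)])
    have b : w0 (tm y) ≤ (2 + 2 * c) ^ 2 * w0 j := cw (by linarith) (by
      rw [Nat.abs_cast]; linarith [le_abs_self (tm y), abs_nonneg (tm y)])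
    have := mul_le_mul b a (w0_pos _).le ((w0_pos _).le.trans b)
    nlinarith [mul_le_mul_of_nonneg_left this (sq_nonneg ε)]

theorem wnd : WND := fun f o c0 hc C _ => by
  have nu := o.nu
  have H1 : ∀ r ≤ f.z.R1 + 3, 0 ≤ f.H r ∧ f.H r ≤ f.H (f.z.R1 + 3) := fun r hr =>
    ⟨(nu.H0 _ (min_le_left _ r)).ge.trans (nu.Hm (min_le_right _ _)), nu.Hm hr⟩
  have H2 : ∀ r ≤ f.z.R1 + 1, |f.H r| ≤ 2 := fun r hr => (le_total r f.z.R1).elim
    (fun l => by rw [nu.H0 r l]; norm_num) fun l => nu.H2 r ⟨l, hr⟩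
  obtain ⟨c, h0, h1⟩ : ∃ c, 6 ≤ c ∧
      c0 + 3 * |f.t0| + f.cH + f.H (f.z.R1 + 3) + |f.us| + |f.ti| + 6 ≤ c := ⟨_, by
    linarith [abs_nonneg f.t0, abs_nonneg f.us, abs_nonneg f.ti, nu.cH0, (H1 _ le_rfl).1], le_rfl⟩
  have a1 := abs_nonneg f.t0
  have a2 := abs_nonneg f.us
  have a3 := abs_nonneg f.ti
  have a4 := nu.cH0
  have a5 := (H1 _ le_rfl).1
  have a6 := neg_abs_le f.t0
  have a7 := le_abs_self f.t0
  obtain ⟨K, K1, hK⟩ := pa_ta (c := c) (by linarith)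
  obtain ⟨B, hB⟩ : ∃ B, B = |C f.z.R1| * (1 + K * c ^ 2 + K * c ^ 4) := ⟨_, rfl⟩
  have B0 : 0 ≤ B := by rw [hB]; positivity
  have c2 : 1 ≤ c ^ 2 := by nlinarith
  refine ⟨(1 + 2 * B) * c ^ 2, by nlinarith, (2 * (|C (f.z.R1 + 1)| + 1))⁻¹, by positivity,
    fun v Rs Rb k n E e0 ε hR i p hE he h1ε d => ?_⟩
  have e0' := i.s0.1
  have ε0 := e0'.trans he
  have tm : ∀ x ∈ Om (f.Dh Rs v.Lv), x.2.1 ≤ f.z.R1 + 1 → f.t0 < x.1 ∧
      |(v.y (pj (shr f.H x))).1 - (x.1 + f.H x.2.1)| ≤ (1 + (x.1 - f.t0)) / 2 := fun x hx l => by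
    have t : f.t0 < x.1 := hx.1.1
    refine ⟨t, (i.ny.tm _ (by linarith) x hx l E ⟨i.sz.1, le_rfl, fun y hy _ =>
      i.sz.2.2 y ⟨hy.1, hy.2.1, hy.2.2.trans (by linarith)⟩ trivial⟩).trans ?_⟩
    have e : C (f.z.R1 + 1) * E ≤ 1 / 2 := by
      rw [← one_div, le_div_iff₀ (by positivity)] at hE
      nlinarith [le_abs_self (C (f.z.R1 + 1)), i.sz.1]
    nlinarith
  have pt := fun t l => hK _ (Un (f.Dh Rs v.Lv) (f.z.R1 + 1)) (fun x => (v.y (pj (shr f.H x))).1)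
    (fun x => eta f.z.M f.z.a k v.g (shr f.H x)) e0 c0 (c ^ 2 * ε) t (by linarith) l
    (by positivity) (by nlinarith) fun x hx => by
      refine (d x ⟨hx.1, hx.2.1, hx.2.2.trans (by linarith)⟩).trans
        (pow_le_pow_left₀ (mul_nonneg ε0 (w0_pos _).le) ?_ 2)
      obtain ⟨t, l⟩ := tm x hx.1 hx.2.2
      have := abs_le.1 (H2 _ hx.2.2)
      have w : w0 (x.1 + f.H x.2.1) ≤ c ^ 2 * w0 (v.y (pj (shr f.H x))).1 := cw (by linarith) (by
        have := abs_sub_abs_le_abs_sub (v.y (pj (shr f.H x))).1 (x.1 + f.H x.2.1)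
        linarith [le_abs_self (x.1 + f.H x.2.1), abs_nonneg (x.1 + f.H x.2.1)])
      exact (mul_le_mul_of_nonneg_left w ε0).trans_eq (by ring)
  have ab : ∀ s ≥ (0 : ℝ), C f.z.R1 * s ≤ |C f.z.R1| * s := fun s l =>
    mul_le_mul_of_nonneg_right (le_abs_self _) l
  have ee : ε ^ 2 ≤ ε := by nlinarith
  have P1 : e0 + (|v.M - f.z.M| + |v.a - f.z.a|) ≤ (1 + 2 * B) * ε := by
    have q := (pt f.t0 (by linarith)).2
    have := (p.ini _ q).trans (ab _ (add_nonneg e0' q.nn))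
    have b : |C f.z.R1| * (e0 + K * (c ^ 2 * ε) ^ 2 * w0 f.t0) ≤ B * ε := by
      rw [hB, mul_assoc |C f.z.R1|]
      refine mul_le_mul_of_nonneg_left ?_ (abs_nonneg _)
      have : K * (c ^ 2 * ε) ^ 2 * w0 f.t0 ≤ K * (c ^ 4 * ε) * 1 := by
        rw [mul_pow, ← pow_mul]
        have := w0_pos f.t0
        gcongr
        exact w0_le _
      nlinarith [mul_nonneg (mul_nonneg (zero_le_one.trans K1) (zero_le_one.trans c2)) ε0]
    have l1 : |v.M - f.z.M| ≤ _ := norm_fst_le ((v.M, v.a) - (f.z.M, f.z.a))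
    have l2 : |v.a - f.z.a| ≤ _ := norm_snd_le ((v.M, v.a) - (f.z.M, f.z.a))
    linarith
  have P2 : ∀ u t, (t, f.z.R1) ∈ f.Dh Rs v.Lv → |t - u| ≤ f.cH →
      ‖v.pq t - (v.M, v.a)‖ ≤ (1 + 2 * B) * c ^ 2 * ε * w0 u := fun u t ht l => by
    have hx : ((t, f.z.R1, 1, 1) : E6) ∈ Om (f.Dh Rs v.Lv) := ⟨ht, by simp⟩
    obtain ⟨t1, t2⟩ := tm _ hx (by simp)
    simp only [nu.H0 _ le_rfl, abs_le] at t1 t2 l
    have q := pt (v.y (pj (shr f.H (t, f.z.R1, 1, 1)))).1 (by linarith)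
    have := p.fin _ hx rfl _ _ q.1 q.2
    generalize (v.y (pj (shr f.H (t, f.z.R1, 1, 1)))).1 = τ at t2 this
    have w : w0 τ ≤ c ^ 2 * w0 u := cw (by linarith) (by
      cases abs_cases u <;> linarith [le_abs_self τ, abs_nonneg τ])
    have := w0_pos τ
    have := w0_pos u
    calc _ ≤ |C f.z.R1| * (K * (c ^ 2 * ε) * w0 τ + K * (c ^ 2 * ε) ^ 2 * w0 τ) :=
          ‹_ ≤ _ * (_ + _)›.trans (ab _ (by positivity))
      _ = |C f.z.R1| * (0 + K * c ^ 2 * ε + K * c ^ 4 * ε ^ 2) * w0 τ := by ring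
      _ ≤ |C f.z.R1| * (ε + K * c ^ 2 * ε + K * c ^ 4 * ε) * (c ^ 2 * w0 u) := by gcongr
      _ = B * (c ^ 2 * ε * w0 u) := by rw [hB]; ring
      _ ≤ (1 + 2 * B) * (c ^ 2 * ε * w0 u) := by gcongr; linarith
      _ = _ := by ring
  have C0 : 0 ≤ (1 + 2 * B) * c ^ 2 * ε := by positivity
  refine fun u => ⟨⟨C0, fun _ => P1.trans ?_, fun _ x hx _ => (d x hx).trans
    (pow_le_pow_left₀ (mul_nonneg ε0 (w0_pos _).le) ?_ 2), fun _ t h l => (P2 u t h l).trans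
      (mul_le_of_le_one_right C0 (w0_le _))⟩, fun l => ⟨mul_nonneg C0 (w0_pos _).le,
    fun l' => P1.trans ?_, fun _ x hx l' => (d x ⟨hx.1, hx.2.1, hx.2.2.trans (by linarith)⟩).trans
      (pow_le_pow_left₀ (mul_nonneg ε0 (w0_pos _).le) ?_ 2), fun _ => P2 u⟩⟩
  · gcongr
    nlinarith
  · exact (mul_le_of_le_one_right ε0 (w0_le _)).trans (le_mul_of_one_le_left ε0 (by nlinarith))
  · have w : w0 0 ≤ c ^ 2 * w0 u := cw (by linarith) (by
      cases abs_cases u <;> linarith [le_abs_self f.ti, neg_abs_le f.us, abs_nonneg (0 : ℝ)])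
    rw [show w0 0 = 1 by simp [w0]] at w
    exact (le_mul_of_one_le_right (by positivity) w).trans_eq (by ring)
  · have w : w0 (x.1 + f.H x.2.1) ≤ c ^ 2 * w0 u := cw (by linarith) (by
      have := H1 _ hx.2.2
      rw [abs_le] at l'
      cases abs_cases u <;>
        linarith [le_abs_self (x.1 + f.H x.2.1), neg_abs_le (x.1 + f.H x.2.1),
          abs_nonneg (x.1 + f.H x.2.1)])
    have := w0_pos u
    calc _ ≤ 1 * (ε * (c ^ 2 * w0 u)) := by rw [one_mul]; exact mul_le_mul_of_nonneg_left w ε0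
      _ ≤ (1 + 2 * B) * (ε * (c ^ 2 * w0 u)) := by gcongr; linarith
      _ = _ := by ring

end Vale.Agent.P354RN
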